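import Vale.Agent.P027M.J.Spec

/-! # P027 route M, block J: Frobenius on the new part -/

set_option linter.all false

open scoped MatrixGroups IntermediateField

noncomputable section

namespace Vale.Agent.P027M.J

open NumberField Vale.Agent.P022 Vale.Agent.P019P P025H373 P025H746 P025H492 P025H816
  Vale.Agent.P027M.M Vale.Agent.P027M.G Vale.Agent.P027M.M.Hec Vale.Agent.P027M.TW

namespace I2

/-- roots of unity of order prime to the residue characteristic are distinct in the residue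
field -/
theorem root_eq {C : Type} [NontriviallyNormedField C] [IsUltrametricDist C] {m : ℕ}
    (hm : (m : kC C) ≠ 0) {a b : C} (ha : a ^ m = 1) (hb : b ^ m = 1) (h : ‖a - b‖ < 1) :
    a = b := by
  have m0 : m ≠ 0 := by rintro rfl; exact hm Nat.cast_zero
  have n1 : ∀ {c : C}, c ^ m = 1 → ‖c‖ = 1 := fun {c} hc =>
    (pow_eq_one_iff_of_nonneg (norm_nonneg c) m0).1 (by rw [← norm_pow, hc, norm_one])
  by_contra hne
  have h1 : (∑ i ∈ Finset.range m, a ^ i * b ^ (m - 1 - i)) = 0 := by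
    have := Commute.geom_sum₂_mul (Commute.all a b) m
    rw [ha, hb, sub_self] at this
    exact (mul_eq_zero.1 this).resolve_right (sub_ne_zero.2 hne)
  let a' : OC C := ⟨a, (n1 ha).le⟩
  let b' : OC C := ⟨b, (n1 hb).le⟩
  have h2 : (∑ i ∈ Finset.range m, a' ^ i * b' ^ (m - 1 - i)) = 0 := by
    apply Subtype.ext
    push_cast
    exact h1
  have h3 : IsLocalRing.residue (OC C) a' = IsLocalRing.residue (OC C) b' := by
    rw [← sub_eq_zero, ← map_sub]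
    have := (cred_eq_zero (C := C) h.le).2 h
    rwa [cred_of h.le] at this
  have h4 := congrArg (IsLocalRing.residue (OC C)) h2
  have h5 : IsLocalRing.residue (OC C) b' ^ m = 1 := by
    rw [← map_pow, show b' ^ m = 1 from Subtype.ext hb, map_one]
  rw [map_sum, map_zero, Finset.sum_congr rfl (g := fun _ =>
    IsLocalRing.residue (OC C) b' ^ (m - 1)) fun i hi => by
      rw [map_mul, map_pow, map_pow, h3, ← pow_add]
      congr 1
      have := Finset.mem_range.1 hi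
      omega, Finset.sum_const, Finset.card_range, nsmul_eq_mul] at h4
  refine (mul_eq_zero.1 h4).elim hm fun h6 => ?_
  rw [pow_eq_zero_iff (fun e => by rw [e, pow_zero] at h6; exact one_ne_zero h6)] at h6
  rw [h6, zero_pow m0] at h5
  exact zero_ne_one h5

variable {Γ : Subgroup SL(2, ℤ)} [CFF Qb (L Γ)] {m : ℕ}

theorem rep_cl {ψ : FF → FF} {f : HA Qb (L Γ) m →+ HA Qb (L Γ) m} (hf : Rep ψ f)
    (r : L Γ →* L Γ) (hr : ∀ x, ((r x : L Γ) : FF) = ψ x) (x : (L Γ)ˣ)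
    (hx : x ∈ divU Qb (L Γ) m) :
    ∃ hy : Units.map r x ∈ divU Qb (L Γ) m, f (cl x hx) = cl (Units.map r x) hy :=
  (rep_iff (u := Units.map r) fun x => hr x).1 hf x hx

/-- from functions to classes -/
theorem to_cl {ψ χ : FF → FF} {f g : HA Qb (L Γ) m →+ HA Qb (L Γ) m} (hf : Rep ψ f)
    (hg : Rep χ g) (r d : L Γ →* L Γ) (hr : ∀ x, ((r x : L Γ) : FF) = ψ x)
    (hd : ∀ x, ((d x : L Γ) : FF) = χ x) (n : ℕ) (x : (L Γ)ˣ) (hx : x ∈ divU Qb (L Γ) m)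
    (h : ∀ a : L Γ, a = r (r x) / d x → ∃ z : L Γ, z ≠ 0 ∧ r (r a) = d a ^ n * z ^ m)
    {z : HA Qb (L Γ) m} (hz : z = f (f (cl x hx)) - g (cl x hx)) : f (f z) = n • g z := by
  obtain ⟨a1, e1⟩ := rep_cl hf r hr x hx
  obtain ⟨a2, e2⟩ := rep_cl hf r hr _ a1
  obtain ⟨a3, e3⟩ := rep_cl hg d hd x hx
  rw [e1, e2, e3, ← cl_div] at hz
  obtain ⟨b1, f1⟩ := rep_cl hf r hr _ (div_mem a2 a3)
  obtain ⟨b2, f2⟩ := rep_cl hf r hr _ b1
  obtain ⟨b3, f3⟩ := rep_cl hg d hd _ (div_mem a2 a3)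
  obtain ⟨c, c0, e⟩ := h ((Units.map r (Units.map r x) / Units.map d x : (L Γ)ˣ) : L Γ)
    (by rw [Units.val_div_eq_div_val]; rfl)
  rw [hz, f1, f2, f3, ← cl_pow, cl_eq]
  refine mem_powU'.2 ⟨c, ?_⟩
  rw [Units.val_div_eq_div_val, Units.val_pow_eq_pow_val, eq_div_iff
    (pow_ne_zero _ (Units.ne_zero _)), mul_comm]
  exact e.symm

end I2

open I2 in
/-- **Frobenius on the new part** -/
theorem inI2 (X : Mdl) (hE : M.EXP) (hG : GALX X) (hR : GRP) (hC : CF) (hS : SHIM X) (h3 : HEC3 X)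
    (hSG : SERG) (hN : NORMF X) (hAV : AVE) (hWI : WINF) (hWG : WGAL X) (hK : KRM X)
    (k1 : KRO1 X) (k2 : KRO2 X) (n0 : I.N0) (i2 : I.I2A) : InI2 X := by
  intro M q hq H j ok hj gp d hd h _ _ Ac nm W hnm hW φ ⟨P, hP, hqP, hφ⟩ u hu y hy1 hy2 z hz
  have hqM : ¬ q ∣ M := fun e => gp.2 (e.mul_left 6)
  have hq3 : ¬ q ∣ 3 ^ j := fun e => gp.2
    (((hq.dvd_of_dvd_pow e).trans (by norm_num : 3 ∣ 6)).mul_right M)
  have hc : IsCoprime (M : ℤ) q :=
    Nat.isCoprime_iff_coprime.2 ((Nat.Prime.coprime_iff_not_dvd hq).2 hqM).symm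
  have hM := ok.lv
  obtain ⟨m1, m2⟩ := mid_up hR hq.pos hM ok.neg
  have hN' := m1.lv
  have ng := neg_up ok.neg q
  have hd' : (M : ℤ) ∣ ((M * q : ℕ) : ℤ) := Int.natCast_dvd_natCast.2 (dvd_mul_right M q)
  obtain ⟨γ, hγ, hγ1⟩ := exists_AL hc
  have hγ2 := mem_GH_one H hγ.c hγ1
  obtain ⟨A, O, w, dc⟩ := dic hAV hWI hq hP hqP
  obtain ⟨iso, fr⟩ := dc.fro φ hφ
  obtain ⟨δ, δ0, δ1⟩ := exists_mat hN'.pos u
  obtain ⟨D, D0, D1, -, eD⟩ := Wq_sq X hq.pos hγ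
  obtain ⟨ε, ε0, eε⟩ := Wq_change X hq.pos hc hγ (AL.of_isAL hd)
  let W₁ := resA A (Wq X hq.pos γ) (Wq_mem_iff X hq.pos hγ (split_up H))
  let Dm := resA A (X.pg δ) (pg_mem_iff X (H := up H q) δ0)
  let D' := resA A (X.pg δ) (pg_mem_iff X (H := H) (hd'.trans δ0))
  let φ₀ := resR (X.gal φ) (gal_mem_iff X h3 hN' ng φ)
  let φ' := resR (X.gal φ) (gal_mem_iff X h3 hM ok.neg φ)
  let E₀ := resA A (X.pg ε) (pg_mem_iff X (H := up H q) ε0)
  let E' := resA A (X.pg ε) (pg_mem_iff X (H := H) (hd'.trans ε0))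
  let s : Qv A ≃+* Qv A := (φ : Qb ≃+* Qb)
  letI := algL h
  haveI := towerV A h
  obtain ⟨_, _, u', kr⟩ := hK M q hq H hM ok.neg hqM P A O w dc γ hγ hγ1 h m1.hi W₁ fun _ => rfl
  haveI : FiniteDimensional (Qv A)⟮algebraMap (L (GH M H)) (L (GH (M * q) (up H q)))
    (la X m1.hi)⟯ (L (GH (M * q) (up H q))) := finite_adjoin_map
  obtain ⟨v, S, tw, nod⟩ := n0 (Qv A) _ _ _ q W₁ u' _ kr
  obtain ⟨x, hx, rfl⟩ := cl_surj y
  have v0 : ∀ y : L (GH (M * q) (up H q)), (v 0).1 y = w y := fun y => by rw [tw.v0]; rfl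
  have ww : ∀ y, W₁ (W₁ (Dm y)) = y := fun y => Subtype.ext (by
    change Wq X hq.pos γ (Wq X hq.pos γ (X.pg δ y)) = y
    rw [eD, pg_mul]
    refine (mem_L_iff X).1 y.2 _ (mem_up.2 ⟨?_, mem_GH_one H ?_ ?_⟩)
    · rw [mul_ent]; exact dvd_add (δ0.mul_right _) (D0.mul_left _)
    · rw [mul_ent]; exact hd'.trans (dvd_add (δ0.mul_right _) (D0.mul_left _))
    · have e1 : (M : ℤ) ∣ δ 1 1 - q := dvd_of_cast (by
        rw [← um_coe (dvd_mul_right M q) δ1, hu, Int.cast_natCast])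
      obtain ⟨a, ha⟩ := e1
      obtain ⟨b, hb⟩ := D1
      obtain ⟨c, hc⟩ := hγ1
      obtain ⟨e, he⟩ := hd'.trans δ0
      exact ⟨e * D 0 1 + a * D 1 1 + b + c * (γ 1 1 + 1), by
        rw [mul_ent]
        linear_combination D 0 1 * he + D 1 1 * ha + hb + (γ 1 1 + 1) * hc⟩)
  have fT : ∀ y : L (GH (M * q) (up H q)), X.pg ModularGroup.T y = y := fun y =>
    (mem_L_iff X).1 y.2 _ (by simpa using T_mem (up H q) 1)
  refine to_cl (Ac.act_rep φ) (Ac.dia_rep u δ δ0 δ1) (φ₀ : _ →* _) (Dm : _ →* _) (fun _ => rfl)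
    (fun _ => rfl) (q ^ 2) x hx (fun a ha => ?_) hz
  refine i2 (Qv A) _ _ (la X m1.hi) v S (3 ^ j) q W₁ Dm D' φ₀ φ' s kr.full kr.good
    tw.full nod tw.all tw.sep (dc.ne _ hq3) hq.ne_zero
    ⟨fun c => Subtype.ext (hG.2.1 φ c), iso⟩ (fun μ hμ => ?_) (fun _ => rfl) (Subtype.ext ?_)
    (fun _ => rfl) (Subtype.ext ?_) ww (fun y => Subtype.ext ?_) (fun y => Subtype.ext ?_)
    (fun y => by rw [tw.v1, tw.v0]) (fun y => ?_) (fun y => ?_) (by rw [tw.v0]; exact tw.den) tw.pl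
    (fun f hf => ?_) (fun y hy => ?_) x x.ne_zero hx ?_ ?_ a ha
  · have n1 : ‖μ‖ = 1 := (pow_eq_one_iff_of_nonneg (norm_nonneg μ) (pow_ne_zero j three_ne_zero)).1
      (by rw [← norm_pow, hμ, norm_one])
    exact root_eq (dc.ne _ hq3) (by rw [← map_pow, hμ, map_one])
      (by rw [← pow_mul, mul_comm, pow_mul, hμ, one_pow]) (fr μ n1.le)
  · change X.gal φ ((2 - X.t) / 4) = (2 - X.t) / 4
    rw [map_div₀, map_sub, hG.2.2.1, map_ofNat, map_ofNat]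
  · refine (mem_L_iff X).1 (la X (le_refl G0)).2 δ ?_
    rw [CongruenceSubgroup.Gamma0_mem]
    exact (ZMod.intCast_zmod_eq_zero_iff_dvd _ 4).2
      ((Int.natCast_dvd_natCast.2 hN'.four).trans δ0)
  · exact gal_Wq_up X hq.pos hE hG hR hC hS h3 hSG hc hγ hN' ng φ y.2
  · exact (h3 _ _ hN' ng y y.2 φ).2.1 δ δ0
  · rw [v0, v0]
    exact (hWG A O w dc.on dc.inf φ iso).1 y
  · rw [tw.v0, ← kr.wwu, ww]
  · rw [v0] at hf ⊢
    have := k1 A O w dc.on dc.inf q hq dc.lt φ fr f (fT (algebraMap _ _ f)) hf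
    rw [← Wq_low X hq.pos hγ hγ1 f.2] at this
    exact this
  · rw [v0] at hy ⊢
    have e1 := norm_up X hR hN hq hc hM ok.neg h hγ hγ2 (W₁.symm y)
    have e2 : Wq X hq.pos γ (W₁.symm y : L (GH (M * q) (up H q))) = y :=
      congrArg Subtype.val (W₁.apply_symm_apply y)
    have y0 : W₁.symm y ≠ 0 := fun e => by
      rw [(W₁.symm.map_eq_zero_iff).1 e] at hy
      simp at hy
    have := k2 A O w dc.on dc.inf q hq dc.lt φ fr _ (fT y) hy
    rw [← mul_div_mul_left _ _ (fun e => y0 (Subtype.ext e)), ← e2, ← e1, e2] at this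
    exact this
  · obtain ⟨b, e⟩ := hnm x hx
    rw [e, cl_eq_zero] at hy1
    obtain ⟨c, hc⟩ := mem_powU'.1 hy1
    exact ⟨c, hc.symm⟩
  · obtain ⟨x', hx', e1, e2⟩ := hW x hx
    obtain ⟨b, e⟩ := hnm x' hx'
    replace hy2 := ((congrArg nm e2).symm.trans hy2)
    rw [e, cl_eq_zero] at hy2
    obtain ⟨c, hc⟩ := mem_powU'.1 hy2
    have e3 : E₀ (W₁ x) = x' := Subtype.ext (by
      rw [e1]
      change X.pg ε (Wq X hq.pos γ x) = Wq X hq.pos d x
      rw [eε, Wq_pg X hq.pos hγ ε0 (x : L (GH (M * q) (up H q))).2])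
    refine ⟨E'.symm c, ?_⟩
    rw [Algebra.norm_eq_of_equiv_equiv E'.toRingEquiv E₀.toRingEquiv (RingHom.ext fun _ => rfl)]
    change E'.symm (Algebra.norm _ (E₀ (W₁ x))) = _
    rw [e3, ← map_pow, hc]
    rfl

end Vale.Agent.P027M.J
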