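import Vale.Agent.P027M.TW.InDef
import Vale.Agent.P027M.M.Hec1
import Vale.Agent.P027M.M.Hec3
import Vale.Agent.P027M.M.CPb

/-! # P027 route M, block J: the Atkin-Lehner operator on functions -/

set_option linter.all false

open Matrix
open scoped MatrixGroups

noncomputable section

namespace Vale.Agent.P027M.J

open Vale.Agent.P022 Vale.Agent.P022.H218.L3 Vale.Agent.P022.H231.L3 Vale.Agent.P022.H236.L3
  Vale.Agent.P022.H542.L3 Vale.Agent.P027M.M Vale.Agent.P027M.M.Hec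

/-- `γ diag(q, 1)` is an Atkin-Lehner matrix at `q` for the level `M q` -/
structure AL (M q : ℕ) (γ : SL(2, ℤ)) : Prop where
  c : (M : ℤ) ∣ γ 1 0
  d : (q : ℤ) ∣ γ 1 1

theorem AL.of_isAL {M q : ℕ} {γ : SL(2, ℤ)} (h : IsAL M q γ) : AL M q γ := ⟨h.1.1, h.2⟩

/-- the Atkin-Lehner operator -/
def Wq (X : Mdl) {q : ℕ} (h0 : 0 < q) (γ : SL(2, ℤ)) : FF ≃ₐ[Qb] FF :=
  X.pb (al 1 q γ none) (al_pos h0 γ none)

/-- `f ↦ f (q z)` -/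
def Vq (X : Mdl) {q : ℕ} (h0 : 0 < q) : FF ≃ₐ[Qb] FF := X.pb !![(q : ℤ), 0; 0, 1] (diag_pos h0)

theorem det1 (γ : SL(2, ℤ)) : γ 0 0 * γ 1 1 - γ 0 1 * γ 1 0 = 1 := by
  have h := γ.det_coe
  rwa [Matrix.det_fin_two] at h

theorem mul_ent (γ δ : SL(2, ℤ)) (i j : Fin 2) :
    (γ * δ) i j = γ i 0 * δ 0 j + γ i 1 * δ 1 j := by
  simp [Matrix.mul_apply, Fin.sum_univ_two]

theorem inv_ent (γ : SL(2, ℤ)) : γ⁻¹ 0 0 = γ 1 1 ∧ γ⁻¹ 0 1 = -γ 0 1 ∧ γ⁻¹ 1 0 = -γ 1 0 ∧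
    γ⁻¹ 1 1 = γ 0 0 := by
  simp [Matrix.SpecialLinearGroup.coe_inv, Matrix.adjugate_fin_two]

theorem T_ent (j : ℤ) : (ModularGroup.T ^ j) 0 0 = 1 ∧ (ModularGroup.T ^ j) 0 1 = j ∧
    (ModularGroup.T ^ j) 1 0 = 0 ∧ (ModularGroup.T ^ j) 1 1 = 1 := by
  have e : ∀ a b, (ModularGroup.T ^ j) a b = (!![1, j; 0, 1] : M2) a b := fun a b => by
    rw [← ModularGroup.coe_T_zpow]
  simp only [e]
  simp

theorem al_none (q : ℕ) (γ : SL(2, ℤ)) :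
    al 1 q γ none = !![q * γ 0 0, γ 0 1; q * γ 1 0, γ 1 1] := by
  ext i j
  fin_cases i <;> fin_cases j <;> simp [al, Matrix.mul_apply, Fin.sum_univ_two, mul_comm]

/-! ### units and diamonds -/

theorem exists_unit {N : ℕ} {γ : SL(2, ℤ)} (h : (N : ℤ) ∣ γ 1 0) :
    ∃ u : (ZMod N)ˣ, (u : ZMod N) = ((γ 1 1 : ℤ) : ZMod N) := by
  have h1 := congrArg (Int.cast : ℤ → ZMod N) (det1 γ)
  push_cast at h1
  rw [(ZMod.intCast_zmod_eq_zero_iff_dvd _ _).2 h, mul_zero, sub_zero] at h1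
  exact ⟨Units.mkOfMulEqOne _ _ ((mul_comm _ _).trans h1), rfl⟩

theorem exists_mat {N : ℕ} (hN : 0 < N) (u : (ZMod N)ˣ) :
    ∃ γ : SL(2, ℤ), (N : ℤ) ∣ γ 1 0 ∧ (u : ZMod N) = ((γ 1 1 : ℤ) : ZMod N) := by
  haveI : NeZero N := ⟨hN.ne'⟩
  obtain ⟨γ, h1, -, h2⟩ := IsDel.exists 1 N ((u : ZMod N).val : ℤ) (by
    rw [one_mul]
    exact Nat.isCoprime_iff_coprime.2 (ZMod.val_coe_unit_coprime u))
  refine ⟨γ, h1, ?_⟩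
  rw [(ZMod.intCast_eq_intCast_iff_dvd_sub _ _ _).2 (dvd_sub_comm.1 h2)]
  simp

theorem um_coe {N d : ℕ} (h : d ∣ N) {u : (ZMod N)ˣ} {a : ℤ} (e : (u : ZMod N) = (a : ZMod N)) :
    ((ZMod.unitsMap h u : (ZMod d)ˣ) : ZMod d) = (a : ZMod d) := by
  rw [ZMod.unitsMap_def, Units.coe_map, e]
  exact map_intCast (ZMod.castHom h (ZMod d)) a

theorem cast_eq {N : ℕ} {a b : ℤ} (h : (N : ℤ) ∣ a - b) : (a : ZMod N) = (b : ZMod N) :=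
  (ZMod.intCast_eq_intCast_iff_dvd_sub _ _ _).2 (dvd_sub_comm.1 h)

theorem dvd_of_cast {N : ℕ} {a b : ℤ} (h : (a : ZMod N) = (b : ZMod N)) : (N : ℤ) ∣ a - b :=
  dvd_sub_comm.1 ((ZMod.intCast_eq_intCast_iff_dvd_sub _ _ _).1 h)

theorem mem_up {M q : ℕ} {H : Subgroup (ZMod M)ˣ} {γ : SL(2, ℤ)} :
    γ ∈ GH (M * q) (up H q) ↔ ((M * q : ℕ) : ℤ) ∣ γ 1 0 ∧ γ ∈ GH M H := by
  constructor
  · rintro ⟨h1, u, hu, e⟩
    exact ⟨h1, (Int.natCast_dvd_natCast.2 (dvd_mul_right M q)).trans h1, _, hu, um_coe _ e⟩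
  · rintro ⟨h1, -, a, ha, e⟩
    obtain ⟨u, hu⟩ := exists_unit h1
    refine ⟨h1, u, ?_, hu⟩
    have : ZMod.unitsMap (dvd_mul_right M q) u = a := Units.ext ((um_coe _ hu).trans e.symm)
    exact Subgroup.mem_comap.2 (this ▸ ha)

theorem up_le {M q : ℕ} (H : Subgroup (ZMod M)ˣ) : GH (M * q) (up H q) ≤ GH M H :=
  fun _ h => (mem_up.1 h).2

theorem split_up {M q : ℕ} (H : Subgroup (ZMod M)ˣ) : TW.Split M q (up H q) :=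
  fun _ _ u h _ => Subgroup.mem_comap.2 (h ▸ H.one_mem)

theorem mem_GH_one {N : ℕ} (H : Subgroup (ZMod N)ˣ) {γ : SL(2, ℤ)} (h : (N : ℤ) ∣ γ 1 0)
    (e : (N : ℤ) ∣ γ 1 1 - 1) : γ ∈ GH N H :=
  ⟨h, 1, H.one_mem, by rw [cast_eq e]; simp⟩

/-- diamonds at `q` -/
theorem exists_dia {M q : ℕ} (hc : IsCoprime (M : ℤ) q) {k : ℤ} (hk : IsCoprime k q) :
    ∃ s : SL(2, ℤ), ((M * q : ℕ) : ℤ) ∣ s 1 0 ∧ (M : ℤ) ∣ s 1 1 - 1 ∧ (q : ℤ) ∣ s 1 1 - k := by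
  obtain ⟨e, f, hef⟩ := hc
  obtain ⟨u, v, huv⟩ := hk
  have h1 : IsCoprime (1 + M * (e * (k - 1))) (M : ℤ) := ⟨1, -(e * (k - 1)), by ring⟩
  have h2 : IsCoprime (1 + M * (e * (k - 1))) (q : ℤ) :=
    ⟨u, v + u * f * (k - 1), by linear_combination huv + u * (k - 1) * hef⟩
  obtain ⟨s, a1, -, c, a2⟩ := IsDel.exists 1 ((M * q : ℕ) : ℤ) _ (by
    rw [one_mul, Nat.cast_mul]; exact h1.mul_right h2)
  push_cast at a2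
  exact ⟨s, a1, ⟨e * (k - 1) + q * c, by linear_combination a2⟩,
    ⟨M * c - f * (k - 1), by linear_combination a2 + (k - 1) * hef⟩⟩

/-- Atkin-Lehner matrices which are trivial at `M` exist -/
theorem exists_AL {M q : ℕ} (hc : IsCoprime (M : ℤ) q) :
    ∃ γ, AL M q γ ∧ (M : ℤ) ∣ γ 1 1 - 1 := by
  obtain ⟨e, f, hef⟩ := hc
  refine ⟨⟨!![1, -e; M, f * q], by rw [Matrix.det_fin_two_of]; linear_combination hef⟩,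
    ⟨dvd_refl _, Dvd.intro_left f rfl⟩, -e, ?_⟩
  show f * q - 1 = M * -e
  linear_combination hef

section W

variable (X : Mdl) {M q : ℕ} (h0 : 0 < q) {γ : SL(2, ℤ)}

theorem pb_smul {A B : M2} {c : ℤ} (hc : c ≠ 0) (e : A = c • B) (hA : 0 < A.det) (hB : 0 < B.det)
    (x : FF) : X.pb A hA x = X.pb B hB x := by
  have h1 : 0 < (c • (1 : M2)).det := by
    rw [Matrix.det_smul, Matrix.det_one, mul_one, Fintype.card_fin]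
    positivity
  rw [← pb_mul X (A := B) (B := c • (1 : M2)) (by rw [e, Matrix.mul_smul, Matrix.mul_one]) hB h1 hA]
  apply cv_inj
  rw [X.pb_coe _ h1, Pb.scal h1 hc rfl]

theorem Wq_eq (γ : SL(2, ℤ)) (x : FF) : Wq X h0 γ x = Vq X h0 (X.pg γ x) :=
  (pb_mul X rfl _ _ _ x).symm

theorem Wq_mul (δ γ : SL(2, ℤ)) (x : FF) : Wq X h0 (δ * γ) x = Wq X h0 γ (X.pg δ x) := by
  rw [Wq_eq, Wq_eq, pg_mul]

/-- on the level `M` the operator is `f ↦ f (q z)` -/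
theorem Wq_low {H : Subgroup (ZMod M)ˣ} (h : AL M q γ) (h1 : (M : ℤ) ∣ γ 1 1 - 1) {x : FF}
    (hx : x ∈ L (GH M H)) : Wq X h0 γ x = Vq X h0 x := by
  rw [Wq_eq, (mem_L_iff X).1 hx γ (mem_GH_one H h.c h1)]

/-- the square is a diamond -/
theorem Wq_sq (h : AL M q γ) : ∃ D : SL(2, ℤ), ((M * q : ℕ) : ℤ) ∣ D 1 0 ∧
    (M : ℤ) ∣ q * D 1 1 - γ 1 1 ^ 2 ∧ (M : ℤ) ∣ D 0 0 - q * γ 0 0 ^ 2 ∧
    ∀ x, Wq X h0 γ (Wq X h0 γ x) = X.pg D x := by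
  obtain ⟨c, hc⟩ := h.c
  obtain ⟨d, hd⟩ := h.d
  have hdet := det1 γ
  refine ⟨⟨!![q * γ 0 0 ^ 2 + γ 0 1 * γ 1 0, γ 0 1 * (γ 0 0 + d);
    q * γ 1 0 * (γ 0 0 + d), γ 0 1 * γ 1 0 + q * d ^ 2], ?_⟩, ⟨c * (γ 0 0 + d), ?_⟩,
    ⟨q * γ 0 1 * c, ?_⟩, ⟨γ 0 1 * c, ?_⟩, fun x => ?_⟩
  · rw [Matrix.det_fin_two_of]
    rw [hd] at hdet
    linear_combination (γ 0 0 * (q * d) - γ 0 1 * γ 1 0 + 1) * hdet
  · show q * γ 1 0 * (γ 0 0 + d) = _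
    rw [hc]; push_cast; ring
  · show q * (γ 0 1 * γ 1 0 + q * d ^ 2) - _ = _
    rw [hc, hd]; ring
  · show q * γ 0 0 ^ 2 + γ 0 1 * γ 1 0 - _ = _
    rw [hc]; ring
  · have hp := det_mul_pos (al_pos (P := 1) h0 γ none) (al_pos (P := 1) h0 γ none)
    rw [Wq, pb_mul X rfl _ _ hp]
    refine pb_smul X (c := q) (by exact_mod_cast h0.ne') ?_ _ _ x
    rw [al_none]
    ext i j
    fin_cases i <;> fin_cases j <;> simp [Matrix.mul_apply, Fin.sum_univ_two, hd] <;> ring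

/-- conjugation of diamonds -/
theorem Wq_conj (h : AL M q γ) {δ : SL(2, ℤ)} (hδ : ((M * q : ℕ) : ℤ) ∣ δ 1 0) :
    ∃ δ' : SL(2, ℤ), ((M * q : ℕ) : ℤ) ∣ δ' 1 0 ∧ (M : ℤ) ∣ δ' 1 1 - δ 1 1 ∧
      (q : ℤ) ∣ δ' 1 1 - δ 0 0 ∧ ∀ x, X.pg δ (Wq X h0 γ x) = Wq X h0 γ (X.pg δ' x) := by
  obtain ⟨c, hc⟩ := h.c
  obtain ⟨d, hd⟩ := h.d
  obtain ⟨z, hz⟩ := hδ
  push_cast at hz
  have hdet := det1 γ
  have hdet' := det1 δ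
  let ε : SL(2, ℤ) := ⟨!![δ 0 0, q * δ 0 1; M * z, δ 1 1], by
    rw [Matrix.det_fin_two_of]; rw [hz] at hdet'; linear_combination hdet'⟩
  have e00 : ε 0 0 = δ 0 0 := rfl
  have e01 : ε 0 1 = q * δ 0 1 := rfl
  have e10 : ε 1 0 = M * z := rfl
  have e11 : ε 1 1 = δ 1 1 := rfl
  obtain ⟨i1, i2, i3, i4⟩ := inv_ent γ
  refine ⟨γ * ε * γ⁻¹, ⟨c * d * (δ 0 0 - δ 1 1) + q * d ^ 2 * z - M * c ^ 2 * δ 0 1, ?_⟩,
    ⟨c * (γ 0 1 * (δ 1 1 - δ 0 0) + γ 0 0 * q * δ 0 1) - γ 0 1 * γ 1 1 * z, ?_⟩,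
    ⟨d * (γ 0 0 * (δ 1 1 - δ 0 0) - γ 0 1 * M * z) + γ 0 0 * γ 1 0 * δ 0 1, ?_⟩, fun x => ?_⟩
  · simp only [mul_ent, i1, i2, i3, i4, e00, e01, e10, e11]
    rw [hc, hd]; push_cast; ring
  · simp only [mul_ent, i1, i2, i3, i4, e00, e01, e10, e11]
    linear_combination δ 1 1 * hdet +
      (γ 0 1 * (δ 1 1 - δ 0 0) + γ 0 0 * q * δ 0 1) * hc
  · simp only [mul_ent, i1, i2, i3, i4, e00, e01, e10, e11]
    linear_combination δ 0 0 * hdet + (γ 0 0 * (δ 1 1 - δ 0 0) - γ 0 1 * M * z) * hd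
  · rw [← Wq_mul, inv_mul_cancel_right, Wq_eq, Wq_eq, ← pg_mul]
    refine pb_swap X ?_ _ _ _ _ _
    ext i j
    fin_cases i <;> fin_cases j <;>
      simp [Matrix.mul_apply, Fin.sum_univ_two, e00, e01, e10, e11, hz] <;> ring

theorem conj_mem {H : Subgroup (ZMod (M * q))ˣ} (hs : TW.Split M q H) {δ δ' : SL(2, ℤ)}
    (hδ : δ ∈ GH (M * q) H) (h1 : ((M * q : ℕ) : ℤ) ∣ δ' 1 0) (h2 : (M : ℤ) ∣ δ' 1 1 - δ 1 1)
    (h3 : (q : ℤ) ∣ δ' 1 1 - δ 0 0) : δ' ∈ GH (M * q) H := by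
  obtain ⟨-, b, hb, eb⟩ := (GH (M * q) H).inv_mem hδ
  obtain ⟨-, a, ha, ea⟩ := hδ
  rw [(inv_ent δ).2.2.2] at eb
  obtain ⟨u, hu⟩ := exists_unit h1
  have e1 : ZMod.unitsMap (dvd_mul_right M q) u = ZMod.unitsMap (dvd_mul_right M q) a :=
    Units.ext (by rw [um_coe _ hu, um_coe _ ea, cast_eq h2])
  have e2 : ZMod.unitsMap (dvd_mul_left q M) u = ZMod.unitsMap (dvd_mul_left q M) b :=
    Units.ext (by rw [um_coe _ hu, um_coe _ eb, cast_eq h3])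
  have h4 := hs (b / a) (div_mem hb ha) (u / a) (by rw [map_div, e1, div_self'])
    (by rw [map_div, map_div, e2])
  exact ⟨h1, u, by simpa using mul_mem h4 ha, hu⟩

theorem Wq_mem (h : AL M q γ) {H : Subgroup (ZMod (M * q))ˣ} (hs : TW.Split M q H) {x : FF}
    (hx : x ∈ L (GH (M * q) H)) : Wq X h0 γ x ∈ L (GH (M * q) H) :=
  (mem_L_iff X).2 fun δ hδ => by
    obtain ⟨δ', h1, h2, h3, e⟩ := Wq_conj X h0 h hδ.1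
    rw [e, (mem_L_iff X).1 hx δ' (conj_mem hs hδ h1 h2 h3)]

theorem pg_mem {N : ℕ} {H : Subgroup (ZMod N)ˣ} {δ : SL(2, ℤ)} (hδ : (N : ℤ) ∣ δ 1 0) {x : FF}
    (hx : x ∈ L (GH N H)) : X.pg δ x ∈ L (GH N H) :=
  (mem_L_iff X).2 fun ε hε => by
    obtain ⟨⟨e, he⟩, -⟩ := id hε
    obtain ⟨d, hd⟩ := id hδ
    rw [pg_mul, pg_congr X hx (γ' := ε * δ), ← pg_mul, (mem_L_iff X).1 hx ε hε]
    · exact ⟨d * ε 0 0 + δ 1 1 * e, by rw [mul_ent, hd, he]; ring⟩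
    · exact ⟨e * δ 0 0 + ε 1 1 * d, by rw [mul_ent, hd, he]; ring⟩
    · exact ⟨d * ε 0 1 - e * δ 0 1, by rw [mul_ent, mul_ent, hd, he]; ring⟩

theorem inv_dvd {N : ℕ} {δ : SL(2, ℤ)} (hδ : (N : ℤ) ∣ δ 1 0) : (N : ℤ) ∣ δ⁻¹ 1 0 := by
  rw [(inv_ent δ).2.2.1]; exact hδ.neg_right

theorem pg_inv (δ : SL(2, ℤ)) (x : FF) : X.pg δ⁻¹ (X.pg δ x) = x := by
  rw [pg_mul, mul_inv_cancel, pg_one]

theorem pg_inv' (δ : SL(2, ℤ)) (x : FF) : X.pg δ (X.pg δ⁻¹ x) = x := by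
  rw [pg_mul, inv_mul_cancel, pg_one]

/-- diamonds commute -/
theorem pg_comm {N : ℕ} {H : Subgroup (ZMod N)ˣ} {δ ε : SL(2, ℤ)} (hδ : (N : ℤ) ∣ δ 1 0)
    (hε : (N : ℤ) ∣ ε 1 0) {x : FF} (hx : x ∈ L (GH N H)) :
    X.pg δ (X.pg ε x) = X.pg ε (X.pg δ x) := by
  obtain ⟨e, he⟩ := hε
  obtain ⟨d, hd⟩ := hδ
  rw [pg_mul, pg_mul]
  refine pg_congr X hx ?_ ?_ ?_
  · exact ⟨e * δ 0 0 + ε 1 1 * d, by rw [mul_ent, hd, he]; ring⟩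
  · exact ⟨d * ε 0 0 + δ 1 1 * e, by rw [mul_ent, hd, he]; ring⟩
  · exact ⟨e * δ 0 1 - d * ε 0 1, by rw [mul_ent, mul_ent, hd, he]; ring⟩

/-- **stability** -/
theorem Wq_mem_iff (h : AL M q γ) {H : Subgroup (ZMod (M * q))ˣ} (hs : TW.Split M q H) (x : FF) :
    x ∈ L (GH (M * q) H) ↔ Wq X h0 γ x ∈ L (GH (M * q) H) := by
  refine ⟨Wq_mem X h0 h hs, fun hx => ?_⟩
  obtain ⟨D, h1, -, -, e⟩ := Wq_sq X h0 h
  have h2 := pg_mem X (inv_dvd h1) (Wq_mem X h0 h hs hx)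
  rwa [e, pg_inv] at h2

/-- on the level `Γ₀(q)` the operator commutes with the diamonds -/
theorem Wq_pg (h : AL M q γ) {H : Subgroup (ZMod M)ˣ} {δ : SL(2, ℤ)}
    (hδ : ((M * q : ℕ) : ℤ) ∣ δ 1 0) {x : FF} (hx : x ∈ L (GH (M * q) (up H q))) :
    X.pg δ (Wq X h0 γ x) = Wq X h0 γ (X.pg δ x) := by
  obtain ⟨δ', h1, h2, -, e⟩ := Wq_conj X h0 h hδ
  have hd : (M : ℤ) ∣ ((M * q : ℕ) : ℤ) := Int.natCast_dvd_natCast.2 (dvd_mul_right M q)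
  have h3 : δ' * δ⁻¹ ∈ GH (M * q) (up H q) := by
    refine mem_up.2 ⟨?_, mul_inv_mem H (hd.trans h1) (hd.trans hδ) h2⟩
    rw [mul_ent]
    exact dvd_add (h1.mul_right _) ((inv_dvd hδ).mul_left _)
  rw [e]
  conv_rhs => rw [← (mem_L_iff X).1 hx _ h3, pg_mul, inv_mul_cancel_right]

/-- two Atkin-Lehner operators differ by a diamond -/
theorem Wq_change (hc : IsCoprime (M : ℤ) q) (h : AL M q γ) {γ' : SL(2, ℤ)} (h' : AL M q γ') :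
    ∃ δ : SL(2, ℤ), ((M * q : ℕ) : ℤ) ∣ δ 1 0 ∧ ∀ x, Wq X h0 γ' x = Wq X h0 γ (X.pg δ x) := by
  obtain ⟨i1, -, i3, -⟩ := inv_ent γ
  refine ⟨γ' * γ⁻¹, ?_, fun x => by rw [← Wq_mul, inv_mul_cancel_right]⟩
  rw [mul_ent, i1, i3, Nat.cast_mul]
  exact hc.mul_dvd (dvd_add (h'.c.mul_right _) (h.c.neg_right.mul_left _))
    (dvd_add (h.d.mul_left _) (h'.d.mul_right _))

end W

end Vale.Agent.P027M.J
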