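import Vale.Agent.P027M.G.Atlm
import Vale.Agent.P027M.D.Over
import Vale.Agent.P027M.S.Loc
import Vale.Agent.P027M.J.W

/-! # P027 route M, block J: the norm attached to a prime above `q` -/

set_option linter.all false

open scoped MatrixGroups

noncomputable section

namespace Vale.Agent.P027M.J

open NumberField Vale.Agent.P022 P025H373 P025H746 Vale.Agent.P027M.M Vale.Agent.P027M.G

theorem cred_nat {C : Type} [NontriviallyNormedField C] [IsUltrametricDist C] (n : ℕ) :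
    cred (n : C) = (n : kC C) := by
  rw [cred_of (IsUltrametricDist.norm_natCast_le_one C n),
    ← map_natCast (IsLocalRing.residue (OC C)) n]
  congr 1

theorem iso_of (A : AV) {g : GQ} {n : ℕ} (hn : n ≠ 0)
    (h : ∀ c, A.a c ≤ 1 → A.a (g c - c ^ n) < 1) (c : Qb) : A.a (g c) = A.a c := by
  have h1 : ∀ c, A.a (g c) ≤ max (A.a (g c - c ^ n)) (A.a c ^ n) := fun c => by
    have h2 := A.na (g c - c ^ n) (c ^ n)
    rwa [sub_add_cancel, map_pow] at h2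
  refine A.inv (g : Qb ≃+* Qb) (fun x => ⟨fun h2 => not_lt.1 fun h3 => ?_, fun h2 => ?_⟩) c
  · have h4 : A.a x⁻¹ < 1 := by rw [map_inv₀]; exact inv_lt_one_of_one_lt₀ h3
    have h5 := (h1 x⁻¹).trans_lt (max_lt (h _ h4.le) (pow_lt_one₀ (A.a.nonneg _) h4 hn))
    have h6 : x ≠ 0 := by
      rintro rfl
      rw [map_zero] at h3
      exact absurd h3 (by norm_num)
    rw [map_inv₀, map_inv₀, inv_lt_one₀ (A.a.pos ((_root_.map_ne_zero g).2 h6))] at h5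
    exact absurd h2 (not_le.2 h5)
  · exact (h1 x).trans (max_le (h x h2).le (pow_le_one₀ (A.a.nonneg _) h2))

theorem val_pow {P : Ideal (𝓞 Qb)} (hP : P.IsPrime) {O : ValuationSubring Qb} (hO : D.Over P O)
    {g : GQ} {n : ℕ} (h : ∀ x : 𝓞 Qb, g • x - x ^ n ∈ P) {x : Qb} (hx : x ∈ O) :
    O.valuation (g x - x ^ n) < 1 := by
  obtain ⟨s, t, h2, h3⟩ := (hO x).mp hx
  have h4 : s ^ n ∉ P := fun h5 => h2 (hP.mem_of_pow_mem n h5)
  have h5 : g • s ∉ P := fun h6 => h4 (by simpa using P.sub_mem h6 (h s))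
  refine D.Ov.lt_one hP hO (s := s ^ n * g • s) (t := s ^ n * (g • t - t ^ n) - t ^ n * (g • s - s ^ n))
    (fun h6 => (hP.mem_or_mem h6).elim h4 h5)
    (P.sub_mem (P.mul_mem_left _ (h t)) (P.mul_mem_left _ (h s))) ?_
  have h7 := congrArg g h3
  rw [map_mul] at h7
  change (s : Qb) ^ n * g s * (g x - x ^ n) = s ^ n * (g t - t ^ n) - t ^ n * (g s - s ^ n)
  rw [← h7, ← h3]
  ring

/-- the norms attached to the prime `P` above `q` -/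
structure Dic (q : ℕ) (P : Ideal (𝓞 Qb)) (A : AV) (O : ValuationSubring ℂ) (w : NV (Qv A) FF) :
    Prop where
  on : A.On O
  inf : Inf O w
  lt : A.a (q : Qb) < 1
  vlt : O.valuation (q : ℂ) < 1
  inv : ∀ n : ℕ, ¬ q ∣ n → (n : ℂ)⁻¹ ∈ O
  chr : (q : kC (Qv A)) = 0
  ne : ∀ n : ℕ, ¬ q ∣ n → (n : kC (Qv A)) ≠ 0
  ine : ∀ g, S.Inert P g → (∀ c, A.a (g c) = A.a c) ∧ ∀ c, A.a c ≤ 1 → A.a (g c - c) < 1
  fro : ∀ g : GQ, (∀ x : 𝓞 Qb, g • x - x ^ q ∈ P) →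
    (∀ c, A.a (g c) = A.a c) ∧ ∀ c, A.a c ≤ 1 → A.a (g c - c ^ q) < 1
  ex : ∃ g : GQ, ∀ x : 𝓞 Qb, g • x - x ^ q ∈ P

theorem dic (hAV : AVE) (hW : WINF) {q : ℕ} (hq : q.Prime) {P : Ideal (𝓞 Qb)} (hP : P.IsPrime)
    (h : (q : 𝓞 Qb) ∈ P) : ∃ A O w, Dic q P A O w := by
  obtain ⟨O, hO, -, hv, -⟩ := D.over_ok q P hq hP h
  obtain ⟨A, O', hA, hAO⟩ := hAV O q hq hv
  obtain ⟨w, hw⟩ := hW A O' hA
  have lt : A.a (q : Qb) < 1 := (Atlm.lt_iff hAO _).2 hv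
  have inv : ∀ n : ℕ, ¬ q ∣ n → (n : ℂ)⁻¹ ∈ O' := fun n hn => by
    have := (hA (n : Qb)⁻¹).2 ((hAO _).2 (Keym.inv_mem_of O hq hv hn))
    rwa [map_inv₀, map_natCast] at this
  have pw : ∀ (g : GQ) (n : ℕ), (∀ x : 𝓞 Qb, g • x - x ^ n ∈ P) →
      ∀ c, A.a c ≤ 1 → A.a (g c - c ^ n) < 1 := fun g n hg c hc =>
    (Atlm.lt_iff hAO _).2 (val_pow hP hO hg ((hAO c).1 hc))
  refine ⟨A, O', w, hA, hw, lt, ?_, inv, ?_, fun n hn => ?_, fun g hg => ?_,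
    fun g hg => ⟨iso_of A hq.ne_zero (pw g q hg), pw g q hg⟩, S.Loc.frob hP hq h⟩
  · rw [Keym.val_lt _ (Nat.cast_ne_zero.2 hq.ne_zero)]
    intro h1
    have h2 := (hA (q : Qb)⁻¹).1 (by rwa [map_inv₀, map_natCast])
    rw [map_inv₀, inv_le_one₀ (A.a.pos (Nat.cast_ne_zero.2 hq.ne_zero))] at h2
    exact absurd lt (not_lt.2 h2)
  · rw [← cred_nat, cred_eq_zero (IsUltrametricDist.norm_natCast_le_one _ q)]
    exact lt
  · have h0 : n ≠ 0 := by rintro rfl; exact hn (dvd_zero q)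
    rw [← cred_nat, Ne, cred_eq_zero (IsUltrametricDist.norm_natCast_le_one _ n),
      Modg.norm_nat hA h0 (inv n hn)]
    exact lt_irrefl _
  · have h1 := pw g 1 fun x => by rw [pow_one]; exact hg x
    exact ⟨iso_of A one_ne_zero h1, fun c hc => by simpa using h1 c hc⟩

/-- restriction of a ring automorphism to a level field -/
def resR {Γ : Subgroup SL(2, ℤ)} (φ : FF ≃+* FF) (h : ∀ x, x ∈ L Γ ↔ φ x ∈ L Γ) : L Γ ≃+* L Γ where
  toFun x := ⟨φ x, (h x).1 x.2⟩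
  invFun x := ⟨φ.symm x, (h _).2 (by rw [φ.apply_symm_apply]; exact x.2)⟩
  left_inv x := Subtype.ext (φ.symm_apply_apply x)
  right_inv x := Subtype.ext (φ.apply_symm_apply x)
  map_mul' x y := Subtype.ext (map_mul φ (x : FF) y)
  map_add' x y := Subtype.ext (map_add φ (x : FF) y)

theorem resR_coe {Γ : Subgroup SL(2, ℤ)} (φ : FF ≃+* FF) (h : ∀ x, x ∈ L Γ ↔ φ x ∈ L Γ) (x : L Γ) :
    ((resR φ h x : L Γ) : FF) = φ x := rfl

/-- restriction of an automorphism to a level field -/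
def resA (A : AV) {Γ : Subgroup SL(2, ℤ)} (φ : FF ≃ₐ[Qb] FF) (h : ∀ x, x ∈ L Γ ↔ φ x ∈ L Γ) :
    L Γ ≃ₐ[Qv A] L Γ :=
  AlgEquiv.ofRingEquiv (f := resR φ.toRingEquiv h) fun c => Subtype.ext (φ.commutes c)

theorem resA_coe (A : AV) {Γ : Subgroup SL(2, ℤ)} (φ : FF ≃ₐ[Qb] FF)
    (h : ∀ x, x ∈ L Γ ↔ φ x ∈ L Γ) (x : L Γ) : ((resA A φ h x : L Γ) : FF) = φ x := rfl

theorem pg_mem_iff (X : Mdl) {N : ℕ} {H : Subgroup (ZMod N)ˣ} {δ : SL(2, ℤ)}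
    (hδ : (N : ℤ) ∣ δ 1 0) (x : FF) : x ∈ L (GH N H) ↔ X.pg δ x ∈ L (GH N H) :=
  ⟨pg_mem X hδ, fun h => by simpa only [pg_inv] using pg_mem X (inv_dvd hδ) h⟩

theorem gal_mem_iff (X : Mdl) (h3 : HEC3 X) {N : ℕ} {H : Subgroup (ZMod N)ˣ} (hN : Lv N)
    (hH : -1 ∈ H) (g : GQ) (x : FF) : x ∈ L (GH N H) ↔ X.gal g x ∈ L (GH N H) := by
  refine ⟨fun h => (h3 N H hN hH x h g).1, fun h => ?_⟩
  have h1 := (h3 N H hN hH _ h g⁻¹).1
  rwa [← RingAut.mul_apply, ← map_mul, inv_mul_cancel, map_one] at h1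

end Vale.Agent.P027M.J
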