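import Vale.Agent.P027M.J.W2
import Vale.Agent.P027M.J.Dic
import Vale.Agent.P027M.I.Kr0

/-! # P027 route M, block J: the modular instance of block I (statements) -/

set_option linter.all false

open scoped MatrixGroups IntermediateField

noncomputable section

namespace Vale.Agent.P027M.J

open NumberField Vale.Agent.P022 Vale.Agent.P019P P025H373 P025H746 Vale.Agent.P027M.M
  Vale.Agent.P027M.G

/-- the parameter `(2 - t) / 4`, with the cusps over `0`, `1`, `∞` -/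
def la (X : Mdl) {Γ : Subgroup SL(2, ℤ)} (h : Γ ≤ G0) : L Γ := (2 - X.tL h) / 4

theorem la_coe (X : Mdl) {Γ : Subgroup SL(2, ℤ)} (h : Γ ≤ G0) :
    ((la X h : L Γ) : FF) = (2 - X.t) / 4 := rfl

/-- the first congruence of Kronecker -/
def KRO1 (X : Mdl) : Prop := ∀ (A : AV) (O : ValuationSubring ℂ) (w : NV (Qv A) FF), A.On O →
  Inf O w → ∀ (q : ℕ) (hq : q.Prime), A.a (q : Qb) < 1 → ∀ φ : GQ,
  (∀ c, A.a c ≤ 1 → A.a (φ c - c ^ q) < 1) → ∀ x : FF, X.pg ModularGroup.T x = x → w x ≤ 1 →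
  w (X.gal φ (Vq X hq.pos x) - x ^ q) < 1

/-- the second congruence of Kronecker -/
def KRO2 (X : Mdl) : Prop := ∀ (A : AV) (O : ValuationSubring ℂ) (w : NV (Qv A) FF), A.On O →
  Inf O w → ∀ (q : ℕ) (hq : q.Prime), A.a (q : Qb) < 1 → ∀ φ : GQ,
  (∀ c, A.a c ≤ 1 → A.a (φ c - c ^ q) < 1) → ∀ x : FF, X.pg ModularGroup.T x = x → w x = 1 →
  w (X.U hq.pos x / X.gal φ x - 1) < 1

/-- **Kronecker data for the levels `M` and `M q`** -/
def KRM (X : Mdl) : Prop := ∀ (M q : ℕ) (hq : q.Prime) (H : Subgroup (ZMod M)ˣ), Lv M → -1 ∈ H →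
  ¬ q ∣ M → ∀ (P : Ideal (𝓞 Qb)) (A : AV) (O : ValuationSubring ℂ) (w : NV (Qv A) FF),
  Dic q P A O w → ∀ γ, AL M q γ → (M : ℤ) ∣ γ 1 1 - 1 →
  ∀ (h : GH (M * q) (up H q) ≤ GH M H) (h0 : GH M H ≤ G0) [CFF Qb (L (GH M H))]
    [CFF Qb (L (GH (M * q) (up H q)))]
    (W : L (GH (M * q) (up H q)) ≃ₐ[Qv A] L (GH (M * q) (up H q))),
    (∀ x, ((W x : L (GH (M * q) (up H q))) : FF) = Wq X hq.pos γ x) →
    letI := algL h
    haveI := towerV A h
    ∃ (_ : FiniteDimensional (L (GH M H)) (L (GH (M * q) (up H q))))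
      (_ : FiniteDimensional (Qv A)⟮la X h0⟯ (L (GH M H))) (u' : I.WW (Qv A) (la X h0)),
      I.Kr (Qv A) (la X h0) q W u' (w.comap (L (GH (M * q) (up H q))))

end Vale.Agent.P027M.J
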