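import Vale.Agent.P027M.J.IguB
import Vale.Agent.P027M.J.Spec

/-! # P027 route M, block J: `InIGU` -/

set_option linter.all false

open scoped MatrixGroups IntermediateField

noncomputable section

namespace Vale.Agent.P027M.J.Igu

open NumberField Vale.Agent.P022 Vale.Agent.P019P P025H746 P025H492 P025H816 Vale.Agent.P027M.M
  Vale.Agent.P027M.TW Vale.Agent.P027M.G

theorem nod_of {X : Mdl} (hX : MIn X) (hK : KRM X) (hN : I.N0) : NOD X := by
  intro M q hq H h P A O w hD γ hγ hγ1 _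
  have m := In.mid hX.grp h
  haveI : CFF Qb (L (GH M H)) := hX.cffs _ m.hi (In.fidx hX.grp h)
  letI := algL (up_le (q := q) H)
  haveI := towerV A (up_le (q := q) H)
  obtain ⟨f1, f2, u', hu⟩ := hK M q hq.1 H h.lv h.neg (In.good hq 0).1 P A O w hD γ hγ hγ1
    (up_le H) m.hi (resA A (Wq X hq.1.pos γ) (Wq_mem_iff X hq.1.pos hγ (split_up H))) fun _ => rfl
  haveI f3 : FiniteDimensional (Qv A)⟮algebraMap _ (L (GH (M * q) (up H q))) (la X m.hi)⟯
    (L (GH (M * q) (up H q))) := finite_adjoin_map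
  obtain ⟨v, S, t, n⟩ := hN _ _ _ _ _ _ _ _ hu
  refine ⟨_, f3, v, S, fun g => ?_, t.full, n, t.ne, t.all, t.sep, fun y => by rw [t.v0]; rfl, t.v1⟩
  change X.gal g ((2 - X.t) / 4) = (2 - X.t) / 4
  rw [map_div₀, map_sub, map_ofNat, map_ofNat, hX.galx.2.2.1]

/-- **inertia at `q`** -/
theorem inIGU {X : Mdl} (hX : MIn X) (hE : M.EXP) (hC : CF) (hS : SHIM X) (hAV : AVE) (hW : WINF)
    (hG : WGAL X) (hI : I.I1B) (hN : I.N0) (hK : KRM X) : InIGU X :=
  igu_of hX hE hC hS hAV hW hG hI (nod_of hX hK hN)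

end Vale.Agent.P027M.J.Igu
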