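import Vale.Agent.P027M.J.Kro
import Vale.Agent.P027M.J.Spec

/-! # P027 route M, block J: the congruences of Kronecker, final form -/

set_option linter.all false

open scoped MatrixGroups

noncomputable section

namespace Vale.Agent.P027M.J

open P025H746 HahnSeries
open Vale.Agent.P022 Vale.Agent.P022.H218.L3 Vale.Agent.P022.H231.L3 Vale.Agent.P022.H236.L3
  Vale.Agent.P022.H542.L3 Vale.Agent.P027M.M Vale.Agent.P027M.G Vale.Agent.P027M.G.Wi

namespace Kro

variable {A : AV} {O : ValuationSubring ℂ} {W : ValuationSubring LS} {w : NV (Qv A) FF} {q : ℕ}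
  {φ : GQ}

theorem root_lt (hq : q.Prime) (hO : O.valuation (q : ℂ) < 1) {η : ℂ} (h : η ^ q = 1) :
    O.valuation (η - 1) < 1 := by
  have h1 : η ∈ O := by
    rw [← O.valuation_le_one_iff]
    by_contra hc
    have h2 : (1 : O.ValueGroup) < O.valuation η ^ q := one_lt_pow₀ (not_le.1 hc) hq.ne_zero
    rw [← map_pow, h, map_one] at h2
    exact lt_irrefl _ h2
  obtain ⟨r, hr⟩ := exists_add_pow_prime_eq hq ((⟨η, h1⟩ : O) - 1) 1
  have h3 : (η - 1) ^ q = -((η - 1) * (r : ℂ) * q) := by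
    have := congrArg (fun z : O => (z : ℂ)) hr
    push_cast at this
    rw [sub_add_cancel, h] at this
    linear_combination (-1 : ℂ) * this
  by_contra hc
  have h4 : (1 : O.ValueGroup) ≤ O.valuation (η - 1) ^ q := one_le_pow_of_one_le' (not_lt.1 hc) q
  rw [← map_pow, h3, Valuation.map_neg, map_mul] at h4
  exact absurd (lt_of_le_of_lt (mul_le_of_le_one_left' ((O.valuation_le_one_iff _).2
    (mul_mem (sub_mem h1 (one_mem _)) r.2))) hO) (not_lt.2 h4)

theorem prod_lt {a : LS} (ha : W.valuation a ≤ 1) (f : ℕ → LS)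
    (h : ∀ j, W.valuation (f j - a) < 1) (n : ℕ) :
    W.valuation (∏ j ∈ Finset.range n, f j - a ^ n) < 1 := by
  induction n with
  | zero => simp
  | succ n ih =>
    have h1 : W.valuation (f n) ≤ 1 := by
      rw [show f n = (f n - a) + a by ring]
      exact (W.valuation.map_add _ _).trans (max_le (h n).le ha)
    rw [Finset.prod_range_succ, show (∏ j ∈ Finset.range n, f j) * f n - a ^ (n + 1) =
      f n * (∏ j ∈ Finset.range n, f j - a ^ n) + a ^ n * (f n - a) by ring]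
    refine lt_of_le_of_lt (W.valuation.map_add _ _) (max_lt ?_ ?_)
    · rw [map_mul]
      exact lt_of_le_of_lt (mul_le_of_le_one_left' h1) ih
    · rw [map_mul, map_pow]
      exact lt_of_le_of_lt (mul_le_of_le_one_left' (pow_le_one' ha n)) (h n)

/-- `U_q f ≡ f ^ φ`, for every prime -/
theorem up_lt' (hP : PRIM) (hE : M.EXP) (hC : CF) (X : Mdl) (hG : GALX X) (hA : A.On O)
    (hI : Inf O w) (hq : q.Prime) (hO : O.valuation (q : ℂ) < 1)
    (hφ : ∀ c, A.a c ≤ 1 → A.a (φ c - c ^ q) < 1) (x : FF)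
    (hT : act ModularGroup.T (cv x) = cv x) (hx : w x ≤ 1) :
    w (X.U hq.pos x - X.gal φ x) < 1 := by
  haveI : Fact q.Prime := ⟨hq⟩
  obtain ⟨W, hW⟩ := H619.L3.chev O
  obtain ⟨σ, hσ, hs⟩ := exists_sig φ
  obtain ⟨s, h, al⟩ := hE.2.2.1 1 x one_pos (by rwa [pow_one])
  obtain ⟨s', k⟩ := (hC φ).2.1 s al
  have h' := exM_period hq.pos one_ne_zero (hG.1 φ x 1 s s' one_pos h k)
  obtain rfl := hs _ _ k
  have hζ := Complex.isPrimitiveRoot_exp q hq.ne_zero
  generalize Complex.exp _ = ζ at hζ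
  have hU := Hec2.up hE X hq.pos hζ h 1
  rw [← map_prod] at hU
  obtain ⟨a, b, a1, b1, b2, e⟩ := rep hP hA hI hx one_pos h
  have m := sig_mem hA hσ (Wi.iso_of hq.ne_zero hφ)
  have p : ∀ z : LS, (∀ k, z.coeff k ∈ AO O) → W.valuation
      (∏ j ∈ Finset.range q, rs (ζ ^ j) (pow_ne_zero _ (hζ.ne_zero hq.pos.ne')) z -
        sb q hq.pos (cm σ z)) < 1 := fun z z1 => by
    have h1 := hW.max _ (frob_cong O q hO σ (resO σ m) (fun _ => rfl)
      (fun a => sig_lt hA hσ hφ a a.2.1 a.2.2) z z1)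
    have h2 := prod_lt (val_le hW fun k => (z1 k).1)
      (fun j => rs (ζ ^ j) (pow_ne_zero _ (hζ.ne_zero hq.pos.ne')) z) (fun j => hW.max _ fun n => by
        rw [HahnSeries.coeff_sub, coeff_rs, ← sub_one_mul, map_mul]
        refine lt_of_le_of_lt (mul_le_of_le_one_right' ((O.valuation_le_one_iff _).2 (z1 n).1))
          (root_lt hq hO ?_)
        rw [← zpow_natCast, ← zpow_mul, mul_comm, zpow_mul, zpow_natCast, ← pow_mul, mul_comm,
          pow_mul, hζ.pow_eq_one, one_pow, one_zpow]) q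
    rw [← sub_sub_sub_cancel_right _ _ (z ^ q)]
    exact lt_of_le_of_lt (W.valuation.map_sub _ _) (max_lt h2 h1)
  have mm : ∀ z : LS, (∀ k, z.coeff k ∈ AO O) → ∀ k, (sb q hq.pos (cm σ z)).coeff k ∈ O :=
    fun z hz => sb_mem q hq.pos fun k => m _ (hz k).1 (hz k).2
  refine (hI W hW (1 * q) _ _ (by simpa using hq.pos) (exM_sub hU h')).2.2
    (quot_lt (by rw [← map_mul, ← map_mul, e]) ?_ ?_ (val_le hW (mm a a1)) (p a a1) (p b b1))
  · rw [← Finset.prod_mul_distrib]
    exact Finset.prod_congr rfl fun j _ => by rw [← map_mul, e]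
  · obtain ⟨k, b2⟩ := b2
    exact prim_val hW (mm b b1) (sb_one_coeff _ _ ⟨k, by rw [coeff_cm, b2, map_one]⟩)

end Kro

theorem kro1 (X : Mdl) (hP : PRIM) (hE : M.EXP) (hG : GALX X) (hR : GRP) (hC : CF) : KRO1 X :=
  fun _ _ _ hA hI _ hq hO _ hφ x _ hx => kro1' X hP hE hG hR hC hA hI hq (Kro.vq_lt hA hO) hφ x hx

theorem kro2 (X : Mdl) (hP : PRIM) (hE : M.EXP) (hG : GALX X) (hC : CF) : KRO2 X := by
  intro A O w hA hI q hq hO φ hφ x hT hx
  have h1 : w (X.gal φ x) = 1 := (gal_iso hP X hA hI (Wi.iso_of hq.ne_zero hφ) x).trans hx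
  have h0 : X.gal φ x ≠ 0 := fun e => by
    rw [e, map_zero] at h1
    exact zero_ne_one h1
  rw [div_sub_one h0, map_div₀, h1, div_one]
  refine Kro.up_lt' hP hE hC X hG hA hI hq (Kro.vq_lt hA hO) hφ x ?_ hx.le
  have h2 := congrArg cv hT
  rw [Hec.cv_pg] at h2
  have h3 := congrArg (act ModularGroup.T) h2
  rw [← AlgEquiv.mul_apply, ← map_mul, mul_inv_cancel, map_one, AlgEquiv.one_apply] at h3
  exact h3.symm

end Vale.Agent.P027M.J
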