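import Vale.Agent.P027M.J.W

/-! # P027 route M, block J: Galois twist of the Atkin-Lehner operator, cosets, norm formula -/

set_option linter.all false

open Matrix
open scoped MatrixGroups

noncomputable section

namespace Vale.Agent.P027M.J

open Vale.Agent.P022 Vale.Agent.P022.H218.L3 Vale.Agent.P022.H231.L3 Vale.Agent.P022.H236.L3
  Vale.Agent.P022.H542.L3 Vale.Agent.P027M.M Vale.Agent.P027M.M.Hec

theorem rs_ze_zero (N : ℕ) (s : LS) : rs (ze N 0) (ze_ne _ _) s = s := by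
  ext n
  rw [coeff_rs]
  simp [ze]

theorem tw_of_row {N : ℕ} {k : ℤ} {γ ε : SL(2, ℤ)} (h1 : (N : ℤ) ∣ k * ε 1 0 - γ 1 0)
    (h2 : (N : ℤ) ∣ ε 1 1 - γ 1 1) : ∃ j : ℤ, Tw N k γ (ModularGroup.T ^ j * ε) := by
  have d1 := det1 γ
  have d2 := det1 ε
  obtain ⟨a, ha⟩ := id h1
  obtain ⟨b, hb⟩ := id h2
  obtain ⟨e1, e2, e3, e4⟩ :=
    Hec3.ent ((k * γ 0 1 - ε 0 1) * ε 0 0 - (γ 0 0 - ε 0 0) * ε 0 1) ε
  refine ⟨_, ⟨ε 0 0 * (γ 0 1 * a - γ 0 0 * b), ?_⟩, ⟨ε 0 1 * (γ 0 1 * a - γ 0 0 * b), ?_⟩,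
    e3.symm ▸ h1, e4.symm ▸ h2⟩
  · rw [e1]
    linear_combination (γ 0 0 - ε 0 0) * d2 + ε 0 0 * (γ 0 1 * ha - γ 0 0 * hb - d1 + d2)
  · rw [e2]
    linear_combination (k * γ 0 1 - ε 0 1) * d2 + ε 0 1 * (γ 0 1 * ha - γ 0 0 * hb - d1 + d2)

section gal

variable (X : Mdl) {M q : ℕ} (h0 : 0 < q) {γ : SL(2, ℤ)}

/-- the expansion of `f (q z)` -/
theorem exM_Vq (hE : EXP) {N : ℕ} (hN : 0 < N) {s : LS} {x : FF} (h : ExM N s (cv x)) :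
    ExM N (sb q h0 s) (cv (Vq X h0 x)) := by
  have h1 := hE.2.1 N q 1 0 h0 one_pos hN (diag_pos h0) s _ h
  rw [rs_ze_zero, mul_one] at h1
  rw [Vq, X.pb_coe]
  exact h1

theorem exists_exM (hE : EXP) (hG : GALX X) (hR : GRP) (x : FF) :
    ∃ N, 0 < N ∧ ∃ s, ExM N s (cv x) ∧ Alg s := by
  obtain ⟨N, hN, hx⟩ := hG.2.2.2.2.1 x
  exact ⟨N, hN.pos, hE.2.2.1 N x hN.pos (hx _ (hR N hN).2.2.2.2.1)⟩

theorem gal_Vq (hE : EXP) (hG : GALX X) (hR : GRP) (hC : CF) (g : GQ) (x : FF) :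
    X.gal g (Vq X h0 x) = Vq X h0 (X.gal g x) := by
  obtain ⟨N, hN, s, hs, ha⟩ := exists_exM X hE hG hR x
  obtain ⟨-, c2, -, -, -, -, c7, -⟩ := hC g
  obtain ⟨s', hs'⟩ := c2 s ha
  exact cv_inj (hE.1 N _ _ _ hN
    (hG.1 g _ N _ _ hN (exM_Vq X h0 hE hN hs) ((c7 s s' q h0).2 hs'))
    (exM_Vq X h0 hE hN (hG.1 g _ N _ _ hN hs hs')))

/-- **the reciprocity law for the Atkin-Lehner operator** -/
theorem gal_Wq (hE : EXP) (hG : GALX X) (hR : GRP) (hC : CF) (hS : SHIM X) (h3 : HEC3 X)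
    (h : AL M q γ) (hN : Lv (M * q)) {H : Subgroup (ZMod (M * q))ˣ} (hH : -1 ∈ H) {g : GQ} {k : ℤ}
    (hk : Cyc (M * q) g k) {s : SL(2, ℤ)} (s0 : ((M * q : ℕ) : ℤ) ∣ s 1 0)
    (s1 : (M : ℤ) ∣ s 1 1 - 1) (s2 : (q : ℤ) ∣ s 1 1 - k) {y : FF} (hy : y ∈ L (GH (M * q) H)) :
    X.gal g (Wq X h0 γ (X.pg s y)) = Wq X h0 γ (X.gal g y) := by
  obtain ⟨hT, hM, -⟩ := (hR _ hN).2.2.2.2.2.2.2 H
  obtain ⟨i1, i2, i3, i4⟩ := inv_ent s
  have ds := det1 s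
  obtain ⟨c, hc⟩ := h.c
  obtain ⟨d, hd⟩ := h.d
  obtain ⟨z, hz⟩ := id s0
  obtain ⟨u, hu⟩ := s1
  obtain ⟨v, hv⟩ := s2
  push_cast at hz
  obtain ⟨j, hj⟩ := tw_of_row (N := M * q) (k := k) (γ := γ) (ε := s⁻¹ * γ)
    ⟨-(k * z * γ 0 0) + (M * s 0 1 * z - s 0 0 * v) * c, by
      rw [mul_ent, i3, i4, hc]
      push_cast
      linear_combination (-(k * γ 0 0) + M * c * s 0 1) * hz - M * c * s 0 0 * hv + M * c * ds⟩
    ⟨-(z * γ 0 1) + (q * s 0 1 * z - s 0 0 * u) * d, by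
      rw [mul_ent, i3, i4, hd]
      push_cast
      linear_combination (-(γ 0 1) + q * d * s 0 1) * hz - q * d * s 0 0 * hu + q * d * ds⟩
  have hx := pg_mem X s0 hy
  obtain ⟨a1, a2, -⟩ := h3 _ H hN hH y hy g
  rw [Wq_eq, gal_Vq X h0 hE hG hR hC, (hS _ hN g k hk).2 _ _ hj _ (L_mono (hM hH).lo hx), Wq_eq,
    a2 s s0, ← pg_mul, ← pg_mul, (mem_L_iff X).1 (pg_mem X s0 a1) _ (zpow_mem hT j), pg_inv]

/-- on the level `Γ₀(q)` the operator commutes with the Galois action -/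
theorem gal_Wq_up (hE : EXP) (hG : GALX X) (hR : GRP) (hC : CF) (hS : SHIM X) (h3 : HEC3 X)
    (hSG : SERG) (hc : IsCoprime (M : ℤ) q) (h : AL M q γ) (hN : Lv (M * q))
    {H : Subgroup (ZMod M)ˣ} (hH : -1 ∈ up H q) (g : GQ) {y : FF}
    (hy : y ∈ L (GH (M * q) (up H q))) : X.gal g (Wq X h0 γ y) = Wq X h0 γ (X.gal g y) := by
  obtain ⟨⟨k, h1, hk⟩, -⟩ := hSG _ hN.pos g
  rw [Nat.cast_mul] at h1
  obtain ⟨s, s0, s1, s2⟩ := exists_dia hc h1.of_mul_right_right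
  rw [← gal_Wq X h0 hE hG hR hC hS h3 h hN hH hk s0 s1 s2 hy, (mem_L_iff X).1 hy s (mem_up.2
    ⟨s0, mem_GH_one H ((Int.natCast_dvd_natCast.2 (dvd_mul_right M q)).trans s0) s1⟩)]

end gal

/-! ### cosets -/

/-- coset representatives -/
def rp (q : ℕ) (γ : SL(2, ℤ)) : Option (Fin q) → SL(2, ℤ)
  | none => 1
  | some j => γ * ModularGroup.T ^ (j.1 : ℤ)

theorem T_mem {N : ℕ} (H : Subgroup (ZMod N)ˣ) (j : ℤ) : ModularGroup.T ^ j ∈ GH N H :=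
  mem_GH_one H (by rw [(T_ent j).2.2.1]; exact dvd_zero _)
    (by rw [(T_ent j).2.2.2, sub_self]; exact dvd_zero _)

theorem rp_mem {M q : ℕ} {H : Subgroup (ZMod M)ˣ} {γ : SL(2, ℤ)} (h : γ ∈ GH M H) :
    ∀ i, rp q γ i ∈ GH M H
  | none => one_mem _
  | some j => mul_mem h (T_mem H _)

theorem rp_unique {M q : ℕ} (hq : q.Prime) (hc : IsCoprime (M : ℤ) q) {H : Subgroup (ZMod M)ˣ}
    {γ : SL(2, ℤ)} (h : AL M q γ) (h1 : γ ∈ GH M H) :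
    ∀ δ ∈ GH M H, ∃! i, δ * (rp q γ i)⁻¹ ∈ GH (M * q) (up H q) := by
  intro δ hδ
  haveI : Fact q.Prime := ⟨hq⟩
  have key : ∀ i, δ * (rp q γ i)⁻¹ ∈ GH (M * q) (up H q) ↔
      (((δ * (rp q γ i)⁻¹) 1 0 : ℤ) : ZMod q) = 0 := fun i => by
    have h2 := mul_mem hδ (inv_mem (rp_mem (q := q) h1 i))
    rw [mem_up, ZMod.intCast_zmod_eq_zero_iff_dvd, Nat.cast_mul]
    exact ⟨fun a => (Dvd.intro_left _ rfl).trans a.1, fun a => ⟨hc.mul_dvd h2.1 a, h2⟩⟩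
  have g1 : ((γ 1 1 : ℤ) : ZMod q) = 0 := (ZMod.intCast_zmod_eq_zero_iff_dvd _ _).2 h.d
  have g0 : ((γ 1 0 : ℤ) : ZMod q) ≠ 0 := fun e => by
    have h2 := congrArg (Int.cast : ℤ → ZMod q) (det1 γ)
    push_cast at h2
    rw [g1, e] at h2
    simp at h2
  have k0 : δ * (rp q γ none)⁻¹ ∈ GH (M * q) (up H q) ↔ ((δ 1 0 : ℤ) : ZMod q) = 0 := by
    rw [key, rp, inv_one, mul_one]
  have k1 : ∀ j : Fin q, δ * (rp q γ (some j))⁻¹ ∈ GH (M * q) (up H q) ↔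
      ((δ 1 1 : ℤ) : ZMod q) = (j.1 : ZMod q) * ((δ 1 0 : ℤ) : ZMod q) := fun j => by
    obtain ⟨i1, -, i3, -⟩ := inv_ent (γ * ModularGroup.T ^ (j.1 : ℤ))
    obtain ⟨t1, t2, t3, t4⟩ := T_ent (j.1 : ℤ)
    rw [key, rp, mul_ent, i1, i3, mul_ent, mul_ent, t1, t2, t3, t4]
    push_cast
    rw [g1]
    constructor
    · intro e
      exact mul_left_cancel₀ g0 (by linear_combination -e)
    · intro e
      rw [e]; ring
  by_cases e : ((δ 1 0 : ℤ) : ZMod q) = 0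
  · refine ⟨none, k0.2 e, fun i hi => ?_⟩
    cases i with
    | none => rfl
    | some j =>
      have h2 := congrArg (Int.cast : ℤ → ZMod q) (det1 δ)
      push_cast at h2
      rw [(k1 j).1 hi, e] at h2
      simp at h2
  · refine ⟨some ⟨(((δ 1 1 : ℤ) : ZMod q) / ((δ 1 0 : ℤ) : ZMod q)).val, ZMod.val_lt _⟩,
      (k1 _).2 (by rw [ZMod.natCast_zmod_val, div_mul_cancel₀ _ e]), fun i hi => ?_⟩
    cases i with
    | none => exact absurd (k0.1 hi) e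
    | some j =>
      congr 1
      apply Fin.ext
      show j.1 = ZMod.val _
      rw [(k1 j).1 hi, mul_div_cancel_right₀ _ e, ZMod.val_natCast_of_lt j.2]

theorem relIndex_of_reps {G I : Type} [Group G] [Fintype I] {Γ Γ' : Subgroup G} (g : I → G)
    (h1 : ∀ i, g i ∈ Γ) (h2 : ∀ γ ∈ Γ, ∃! i, γ * (g i)⁻¹ ∈ Γ') :
    Γ'.relIndex Γ = Fintype.card I := by
  rw [Subgroup.relIndex, Subgroup.index, ← Nat.card_eq_fintype_card]
  symm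
  refine Nat.card_congr (Equiv.ofBijective
    (fun i => QuotientGroup.mk (⟨g i, h1 i⟩ : Γ)⁻¹) ⟨fun i j e => ?_, fun x => ?_⟩)
  · rw [QuotientGroup.eq, inv_inv, Subgroup.mem_subgroupOf] at e
    exact (h2 _ (h1 i)).unique (by rw [mul_inv_cancel]; exact Γ'.one_mem) e
  · obtain ⟨y, rfl⟩ := QuotientGroup.mk_surjective x
    obtain ⟨i, hi, -⟩ := h2 _ (Γ.inv_mem y.2)
    exact ⟨i, (QuotientGroup.eq.2 (Subgroup.mem_subgroupOf.2 hi)).symm⟩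

/-- the index of `Γ₀(q)` -/
theorem relIndex_up {M q : ℕ} (hq : q.Prime) (hc : IsCoprime (M : ℤ) q) (H : Subgroup (ZMod M)ˣ) :
    (GH (M * q) (up H q)).relIndex (GH M H) = q + 1 := by
  obtain ⟨γ, h, h1⟩ := exists_AL hc
  have h2 := mem_GH_one H h.c h1
  rw [relIndex_of_reps _ (rp_mem h2) (rp_unique hq hc h h2), Fintype.card_option, Fintype.card_fin]

theorem neg_up {M : ℕ} {H : Subgroup (ZMod M)ˣ} (h : -1 ∈ H) (q : ℕ) : -1 ∈ up H q := by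
  have : ZMod.unitsMap (dvd_mul_right M q) (-1) = -1 :=
    Units.ext (by rw [um_coe (a := -1) _ (by simp)]; simp)
  exact Subgroup.mem_comap.2 (this.symm ▸ h)

theorem mid_up (hR : GRP) {M q : ℕ} (h0 : 0 < q) (hM : Lv M) {H : Subgroup (ZMod M)ˣ}
    (h : -1 ∈ H) : Mid (M * q) (GH M H) ∧ Mid (M * q) (GH (M * q) (up H q)) := by
  obtain ⟨l, -⟩ := (hR M hM).2.2.2.2.2.2.1 q h0
  have a := ((hR _ l).2.2.2.2.2.2.2 (up H q)).2.1 (neg_up h q)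
  exact ⟨⟨l, a.lo.trans (up_le H), (((hR M hM).2.2.2.2.2.2.2 H).2.1 h).hi⟩, a⟩

theorem finrank_up (X : Mdl) (hR : GRP) (hF : M.FAITH X) {M q : ℕ} (hq : q.Prime)
    (hc : IsCoprime (M : ℤ) q) (hM : Lv M) {H : Subgroup (ZMod M)ˣ} (hH : -1 ∈ H)
    (h : GH (M * q) (up H q) ≤ GH M H) :
    letI := algL h
    Module.finrank (L (GH M H)) (L (GH (M * q) (up H q))) = q + 1 := by
  obtain ⟨m1, m2⟩ := mid_up hR hq.pos hM hH
  rw [← relIndex_up hq hc H]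
  exact hF.2.2 _ _ _ h m1 m2

/-- **the norm formula** `N x = x · U_q (W x)` -/
theorem norm_up (X : Mdl) (hR : GRP) (hN : NORMF X) {M q : ℕ} (hq : q.Prime)
    (hc : IsCoprime (M : ℤ) q) (hM : Lv M) {H : Subgroup (ZMod M)ˣ} (hH : -1 ∈ H)
    (h : GH (M * q) (up H q) ≤ GH M H) {γ : SL(2, ℤ)} (hγ : AL M q γ) (h1 : γ ∈ GH M H)
    (x : L (GH (M * q) (up H q))) :
    letI := algL h
    ((Algebra.norm (L (GH M H)) x : L (GH M H)) : FF) =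
      x * X.U hq.pos (Wq X hq.pos γ x) := by
  obtain ⟨m1, m2⟩ := mid_up hR hq.pos hM hH
  rw [hN _ _ _ h m1 m2 _ _ (rp_mem h1) (rp_unique hq hc hγ h1) x, Fintype.prod_option, rp, pg_one,
    U_apply]
  congr 1
  refine Finset.prod_congr rfl fun j _ => ?_
  have hp := det_mul_pos (al_pos (P := 1) hq.pos γ none) (al_pos (P := 1) hq.pos 1 (some j))
  rw [Wq, pb_mul X rfl _ _ hp]
  refine (pb_smul X (c := q) (by exact_mod_cast hq.ne_zero) ?_ _ _ _).symm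
  rw [al_none, rp, Matrix.SpecialLinearGroup.coe_mul, ModularGroup.coe_T_zpow]
  ext a b
  fin_cases a <;> fin_cases b <;> simp [al, Matrix.mul_apply, Fin.sum_univ_two] <;> ring

end Vale.Agent.P027M.J
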