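import Vale.Agent.P027M.J.Kr
import Vale.Agent.P027M.J.Kro2
import Vale.Agent.P027M.J.Igu
import Vale.Agent.P027M.J.I2
import Vale.Agent.P027M.I.Van3
import Vale.Agent.P027M.G.All
import Vale.Agent.P027M.M.Alk3

/-! # P027 route M, block J: closed terms -/

set_option linter.all false

namespace Vale.Agent.P027M.J

open Vale.Agent.P027M.M Vale.Agent.P027M.G

theorem j_kro1 (X : Mdl) : KRO1 X := kro1 X x_prim M.exp (x_galx X) grp cf2

theorem j_kro2 (X : Mdl) : KRO2 X := kro2 X x_prim M.exp (x_galx X) cf2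

theorem j_krm (X : Mdl) : KRM X :=
  krm X M.exp (x_plc X) (artin X) grp x_cffs (x_faith X) (x_galx X) cf2 (g_modg X) (g_unrm X)
    (j_kro1 X)

theorem j_i2 (X : Mdl) : TW.InI2 X :=
  inI2 X M.exp (x_galx X) grp cf2 (x_shim X) (x_hec3 X) serg (x_normf X) ave g_winf (g_wgal X)
    (j_krm X) (j_kro1 X) (j_kro2 X) I.n0' I.i2a'

theorem j_min (X : Mdl) : TW.MIn X :=
  ⟨grp, x_cffs, artin X, x_faith X, x_galx X, x_unram, x_hec3 X, x_act X, x_comm X, x_es g_key X,
    x_unr g_key X, x_open X, x_lev X, x_alk X⟩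

theorem j_igu (X : Mdl) : TW.InIGU X :=
  Igu.inIGU (j_min X) M.exp cf2 (x_shim X) ave g_winf (g_wgal X) I.i1b' I.n0' (j_krm X)

end Vale.Agent.P027M.J
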