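import Vale.Agent.P027M.J.W
import Vale.Agent.P027M.M.CPbm

/-! # P027 route M, block J: orders of `t ∓ 2` and of their Atkin-Lehner images at the cusps -/

set_option linter.all false

open Matrix
open scoped MatrixGroups

noncomputable section

namespace Vale.Agent.P027M.J

open Vale.Agent.P022 Vale.Agent.P022.H218.L3 Vale.Agent.P022.H231.L3 Vale.Agent.P022.H236.L3
  Vale.Agent.P022.H542.L3 Vale.Agent.P027M.M Vale.Agent.P027M.M.Hec Vale.Agent.P019P P025H816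
  P025H492

theorem order_eq {x : LS} {n : ℤ} (h1 : x.coeff n ≠ 0) (h2 : ∀ m < n, x.coeff m = 0) :
    x.order = n := by
  have h0 : x ≠ 0 := fun h => h1 (by rw [h]; rfl)
  refine le_antisymm (HahnSeries.order_le_of_coeff_ne_zero h1) (not_lt.1 fun h => ?_)
  exact HahnSeries.coeff_order_eq_zero.not.2 h0 (h2 _ h)

theorem order_rs (ζ : ℂ) (hζ : ζ ≠ 0) (x : LS) : (rs ζ hζ x).order = x.order := by
  by_cases h0 : x = 0
  · rw [h0, map_zero]
  refine order_eq ?_ fun m hm => ?_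
  · rw [coeff_rs]
    exact mul_ne_zero (zpow_ne_zero _ hζ) (HahnSeries.coeff_order_eq_zero.not.2 h0)
  · rw [coeff_rs, HahnSeries.coeff_eq_zero_of_lt_order hm, mul_zero]

theorem order_sb (m : ℕ) (hm : 0 < m) (x : LS) : (sb m hm x).order = m * x.order := by
  by_cases h0 : x = 0
  · rw [h0, map_zero, HahnSeries.order_zero, mul_zero]
  refine order_eq ?_ fun n hn => ?_
  · rw [coeff_sb_mul]
    exact HahnSeries.coeff_order_eq_zero.not.2 h0
  · by_cases hd : (m : ℤ) ∣ n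
    · obtain ⟨k, rfl⟩ := hd
      rw [coeff_sb_mul]
      exact HahnSeries.coeff_eq_zero_of_lt_order
        (lt_of_mul_lt_mul_left hn (Int.natCast_nonneg m))
    · exact coeff_sb_of_not_dvd _ _ _ _ hd

theorem order_add_C {s : LS} {c : ℂ} (h0 : s ≠ 0) (h : s.order < 0) :
    (s + HahnSeries.C c).order = s.order := by
  refine order_eq ?_ fun m hm => ?_
  · rw [HahnSeries.coeff_add, HahnSeries.C_apply, HahnSeries.coeff_single_of_ne h.ne, add_zero]
    exact HahnSeries.coeff_order_eq_zero.not.2 h0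
  · rw [HahnSeries.coeff_add, HahnSeries.C_apply, HahnSeries.coeff_single_of_ne (hm.trans h).ne,
      add_zero, HahnSeries.coeff_eq_zero_of_lt_order hm]

theorem order_add_C' {s : LS} {c : ℂ} (hc : c ≠ 0) (h : 0 < s.order) :
    (s + HahnSeries.C c).order = 0 := by
  refine order_eq ?_ fun m hm => ?_
  · rw [HahnSeries.coeff_add, HahnSeries.C_apply, HahnSeries.coeff_single_same,
      HahnSeries.coeff_eq_zero_of_lt_order h, zero_add]
    exact hc
  · rw [HahnSeries.coeff_add, HahnSeries.C_apply, HahnSeries.coeff_single_of_ne hm.ne,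
      add_zero, HahnSeries.coeff_eq_zero_of_lt_order (hm.trans h)]

/-- four times the order of `t - 2 + 2 r` at the cusp with denominator `c`, in the level -/
def kap4 (r c : ℤ) : ℤ := if c % 2 = 1 then -1 else if c % 4 = r then 4 else 0

theorem kap4_mul {r a c c' : ℤ} (hr : r = 0 ∨ r = 2) (ha : a % 2 = 1) (h : (4 : ℤ) ∣ a * c' - c) :
    kap4 r c' = kap4 r c := by
  have h1 : c % 4 = a % 4 * (c' % 4) % 4 := by
    rw [← Int.mul_emod]
    omega
  unfold kap4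
  rcases (by omega : a % 4 = 1 ∨ a % 4 = 3) with e | e <;>
    rcases (by omega : c' % 4 = 0 ∨ c' % 4 = 1 ∨ c' % 4 = 2 ∨ c' % 4 = 3) with f | f | f | f <;>
    rw [e, f] at h1 <;> split_ifs <;> omega

theorem exM_int {N : ℕ} {s : LS} {x : Mer} (h : ExM N s x) (n : ℤ) :
    ExM N (s + HahnSeries.C (n : ℂ)) (x + n) := by
  have h1 := h.add (ExM.const N (n : ℂ))
  rwa [map_intCast (algebraMap ℂ Mer)] at h1

theorem tex (X : Mdl) {N : ℕ} (hN : Lv N) (γ : SL(2, ℤ)) {r : ℤ} (hr : r = 0 ∨ r = 2) :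
    ∃ s, ExM N s (act γ⁻¹ (cv (X.t + ((2 * r - 2 : ℤ) : FF)))) ∧
      4 * s.order = N * kap4 r (γ 1 0) := by
  rw [map_add, map_add, map_intCast, map_intCast]
  have hp : (0 : ℤ) < N := by exact_mod_cast hN.pos
  have c2 : (2 : LS) = HahnSeries.C 2 := (map_ofNat _ 2).symm
  rcases (by omega : γ 1 0 % 2 = 1 ∨ γ 1 0 % 4 = 0 ∨ γ 1 0 % 4 = 2) with h | h | h
  · obtain ⟨s, hs, he⟩ := X.tex1 N hN γ (Int.odd_iff.2 h)
    obtain ⟨n, hn⟩ := hN.four
    have := hs.ord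
    refine ⟨_, exM_int he _, ?_⟩
    rw [order_add_C hs.ne (by omega), kap4, if_pos h]
    omega
  · obtain ⟨s, hs, he⟩ := X.tex0 N hN γ (by omega)
    have := hs.ord
    refine ⟨_, exM_int he _, ?_⟩
    rw [c2, add_right_comm, ← map_add, add_comm, kap4, if_neg (by omega)]
    rcases hr with rfl | rfl
    · rw [if_pos h]
      norm_num
      omega
    · rw [if_neg (by omega), order_add_C' (by norm_num) (by omega)]
      rfl
  · obtain ⟨s, hs, he⟩ := X.tex2 N hN γ (by omega)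
    have := hs.ord
    refine ⟨_, exM_int he _, ?_⟩
    rw [c2, ← map_neg, add_right_comm, ← map_add, add_comm, kap4, if_neg (by omega)]
    rcases hr with rfl | rfl
    · rw [if_neg (by omega), order_add_C' (by norm_num) (by omega)]
      rfl
    · rw [if_pos h]
      norm_num
      omega

section

variable (X : Mdl) {M q : ℕ} {γ : SL(2, ℤ)}

theorem cusp_top (hE : EXP) (hq : q.Prime) (ho : q % 2 = 1) (hM : Lv M) (hN : Lv (M * q))
    (h : AL M q γ) [CFF Qb (L (Gt (M * q)))] {δ : SL(2, ℤ)} {P : Plk Qb (L (Gt (M * q)))}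
    (hP : CuspAt (M * q) δ P) {r : ℤ} (hr : r = 0 ∨ r = 2) {y y' : L (Gt (M * q))}
    (hy : (y : FF) = X.t + ((2 * r - 2 : ℤ) : FF)) (hy' : (y' : FF) = Wq X hq.pos γ y) :
    ∃ a : ℤ, 0 < a ∧ q * ord P y' = a ^ 2 * ord P y := by
  have p1 := det_mul_pos (al_pos (P := 1) hq.pos γ none) (SL_pos δ)
  obtain ⟨ε, a, d, b, ha, hd, e⟩ := Pbm.hermite _ p1
  have had : a * d = q := by
    have h1 := congrArg Matrix.det e
    rw [Matrix.det_mul, Matrix.det_mul, det_al, δ.det_coe, ε.det_coe, Matrix.det_fin_two_of] at h1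
    have h2 : ((a * d : ℕ) : ℤ) = q := by push_cast; linarith
    exact_mod_cast h2
  obtain ⟨N', l', e'⟩ : ∃ N', Lv N' ∧ N' * d = M * q := by
    rcases (Nat.dvd_prime hq).1 (Dvd.intro_left a had) with h1 | h1
    · exact ⟨_, hN, by rw [h1, mul_one]⟩
    · exact ⟨_, hM, by rw [h1]⟩
  have p2 : 0 < (!![(a : ℤ), b; 0, (d : ℤ)] : M2).det := by
    rw [Matrix.det_fin_two_of]
    simp only [mul_zero, sub_zero]
    positivity
  obtain ⟨s, s1, s2⟩ := tex X hN δ hr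
  obtain ⟨u, u1, u2⟩ := tex X l' ε hr
  have v1 := hE.2.1 N' a d b ha hd l'.pos p2 u _ u1
  have v2 : pbz _ p2 (act ε⁻¹ (cv (X.t + ((2 * r - 2 : ℤ) : FF)))) = act δ⁻¹ (cv (y' : FF)) := by
    rw [← cv_pg, ← cv_pg, ← X.pb_coe, hy', hy]
    exact congrArg cv (pb_swap X e.symm _ _ _ _ _)
  rw [v2] at v1
  have v3 : ExM (M * q) (sb a ha (rs (ze (N' * d) b) (ze_ne _ _) u)) (act δ⁻¹ (cv (y' : FF))) := by
    generalize rs (ze (N' * d) b) (ze_ne _ _) u = z at v1 ⊢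
    rwa [e'] at v1
  have o1 := hP y s (hy ▸ s1)
  have o2 := hP y' _ v3
  rw [order_sb, order_rs] at o2
  have e10 : q * γ 1 0 * δ 0 0 + γ 1 1 * δ 1 0 = ε 1 0 * a := by
    have h1 := congrFun (congrFun e 1) 0
    rw [al_none] at h1
    simpa [Matrix.mul_apply, Fin.sum_univ_two] using h1
  obtain ⟨c, hc⟩ := (Int.natCast_dvd_natCast.2 hM.four).trans h.c
  have oa : (a : ℤ) % 2 = 1 := by
    have h1 : Odd (a * d) := had.symm ▸ Nat.odd_iff.2 ho
    have h2 := Nat.odd_iff.1 (Nat.odd_mul.1 h1).1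
    omega
  have og : γ 1 1 % 2 = 1 := by
    have h1 := det1 γ
    rw [hc] at h1
    by_contra h2
    obtain ⟨k, hk⟩ : (2 : ℤ) ∣ γ 1 1 := by omega
    have h3 : 2 * (γ 0 0 * k - γ 0 1 * (2 * c)) = 1 := by
      rw [hk] at h1; push_cast at h1; linear_combination h1
    omega
  have k1 : kap4 r (ε 1 0) = kap4 r (γ 1 1 * δ 1 0) :=
    kap4_mul hr oa ⟨q * c * δ 0 0, by rw [hc] at e10; push_cast at e10; linear_combination -e10⟩
  have k2 : kap4 r (δ 1 0) = kap4 r (γ 1 1 * δ 1 0) := kap4_mul hr og (by simp)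
  refine ⟨a, by exact_mod_cast ha, ?_⟩
  have z1 : (a : ℤ) * d = q := by exact_mod_cast had
  have z2 : (N' : ℤ) * d = ((M * q : ℕ) : ℤ) := by exact_mod_cast e'
  rw [k1, ← k2] at u2
  rw [o1, o2]
  apply mul_left_cancel₀ (four_ne_zero (α := ℤ))
  linear_combination (q * a) * u2 - a ^ 2 * s2 - a * N' * kap4 r (δ 1 0) * z1 +
    a ^ 2 * kap4 r (δ 1 0) * z2

/-- **the cusps**: `q ord (W y) = a ^ 2 ord y` for `y = t ∓ 2` up to a constant -/
theorem cusp (hE : EXP) (hC : PLC X) (hA : ARTIN X) (hR : GRP) (hF : CFFS) (hq : q.Prime)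
    (ho : q % 2 = 1) (hM : Lv M) (h : AL M q γ) {Γ : Subgroup SL(2, ℤ)} (m : Mid (M * q) Γ)
    [CFF Qb (L Γ)] (P : Plk Qb (L Γ)) {r : ℤ} (hr : r = 0 ∨ r = 2) {c : Qb} (hc : c ≠ 0)
    {y y' : L Γ} (hy : (y : FF) = algebraMap Qb FF c * (X.t + ((2 * r - 2 : ℤ) : FF)))
    (hy' : (y' : FF) = Wq X hq.pos γ y) (h0 : ord P y ≠ 0) :
    ∃ a : ℤ, 0 < a ∧ q * ord P y' = a ^ 2 * ord P y := by
  obtain ⟨fi, -, mt, -⟩ := hR _ m.lv
  letI := algL m.lo
  haveI := towerL m.lo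
  haveI : CFF Qb (L (Gt (M * q))) := hF _ mt.hi fi
  haveI := (hA Γ _ m.lo fi).1
  obtain ⟨Q, rfl⟩ := exists_over (L := L (Gt (M * q))) P
  have rp := ram_pos (K := L Γ) Q
  have sc : ∀ z : L Γ, ord Q (algebraMap Qb _ c⁻¹ * algebraMap (L Γ) (L (Gt (M * q))) z) =
      ram (L Γ) Q * ord (down (L Γ) Q) z := fun z => by
    by_cases hz : z = 0
    · rw [hz, map_zero, mul_zero, ord_zero, ord_zero, mul_zero]
    · rw [ord_mul _ ((_root_.map_ne_zero _).2 (inv_ne_zero hc)) ((_root_.map_ne_zero _).2 hz),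
        ord_const, zero_add, ord_algebraMap]
  have e1 : ((algebraMap Qb _ c⁻¹ * algebraMap (L Γ) (L (Gt (M * q))) y : L (Gt (M * q))) : FF) =
      X.t + ((2 * r - 2 : ℤ) : FF) := by
    show algebraMap Qb FF c⁻¹ * (y : FF) = _
    rw [hy, ← mul_assoc, ← map_mul, inv_mul_cancel₀ hc, map_one, one_mul]
  have e2 : algebraMap Qb _ c⁻¹ * algebraMap (L Γ) (L (Gt (M * q))) y =
      X.tL mt.hi + ((2 * r - 2 : ℤ) : L (Gt (M * q))) := 
    Subtype.ext (e1.trans (congrArg (X.t + ·) (map_intCast (L (Gt (M * q))).val _).symm))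
  have n0 : ord Q (X.tL mt.hi + ((2 * r - 2 : ℤ) : L (Gt (M * q)))) ≠ 0 := by
    rw [← e2, sc]
    exact mul_ne_zero (by omega) h0
  obtain ⟨δ, hδ⟩ := (hC _ mt).2.1 Q (by
    by_cases h1 : ord Q (X.tL mt.hi) < 0
    · exact Or.inr (Or.inr h1)
    have h2 : X.tL mt.hi + ((2 * r - 2 : ℤ) : L (Gt (M * q))) ∈ Q.1 :=
      add_mem ((mem_iff_ord Q _).2 (Or.inr (not_lt.1 h1))) (intCast_mem _ _)
    have h3 := lt_of_le_of_ne (ord_nonneg_of_mem Q h2) n0.symm
    rcases hr with rfl | rfl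
    · left
      rwa [show ((2 * 0 - 2 : ℤ) : L (Gt (M * q))) = -2 by norm_num, ← sub_eq_add_neg] at h3
    · right; left
      rwa [show ((2 * 2 - 2 : ℤ) : L (Gt (M * q))) = 2 by norm_num] at h3)
  obtain ⟨a, ha, e⟩ := cusp_top X hE hq ho hM m.lv h hδ hr e1
    (y' := algebraMap Qb _ c⁻¹ * algebraMap (L Γ) (L (Gt (M * q))) y') (by
      show algebraMap Qb FF c⁻¹ * (y' : FF) = Wq X hq.pos γ (algebraMap Qb FF c⁻¹ * (y : FF))
      rw [map_mul, AlgEquiv.commutes, hy'])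
  rw [sc, sc] at e
  refine ⟨a, ha, mul_left_cancel₀ (a := (ram (L Γ) Q : ℤ)) (by omega) ?_⟩
  linear_combination e

theorem cusp_le {q a x y : ℤ} (ha : 0 < a) (e : q * y = a ^ 2 * x) :
    (0 < x → x ≤ q * y) ∧ (x < 0 → q * y ≤ x) := by
  have h1 : 1 ≤ a ^ 2 := by nlinarith
  rw [e]
  exact ⟨fun h => by nlinarith, fun h => by nlinarith⟩

end

end Vale.Agent.P027M.J
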