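import Vale.Agent.P027M.J.W2

/-! # P027 route M, block J: the cyclic cover given by the diamonds at `q` -/

set_option linter.all false

open Matrix
open scoped MatrixGroups

noncomputable section

namespace Vale.Agent.P027M.J

open Vale.Agent.P022 Vale.Agent.P022.H218.L3 Vale.Agent.P022.H231.L3 Vale.Agent.P027M.M
  Vale.Agent.P027M.M.Hec Vale.Agent.P019P P025H816 P025H492

theorem GH_mono {N : ℕ} {H H' : Subgroup (ZMod N)ˣ} (h : H ≤ H') : GH N H ≤ GH N H' :=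
  fun _ ⟨h1, a, ha, e⟩ => ⟨h1, a, h ha, e⟩

/-- the image of `H` at the level `M` -/
def dn {M q : ℕ} (H : Subgroup (ZMod (M * q))ˣ) : Subgroup (ZMod M)ˣ :=
  H.map (ZMod.unitsMap (dvd_mul_right M q))

theorem le_up_dn {M q : ℕ} (H : Subgroup (ZMod (M * q))ˣ) : GH (M * q) H ≤ GH (M * q) (up (dn H) q) :=
  GH_mono (Subgroup.le_comap_map _ H)

theorem neg_dn {M q : ℕ} {H : Subgroup (ZMod (M * q))ˣ} (h : -1 ∈ H) : -1 ∈ dn H :=
  ⟨-1, h, Units.ext (by rw [um_coe (a := -1) _ (by simp)]; simp)⟩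

theorem crt {M q : ℕ} (h0 : 0 < M * q) (hc : IsCoprime (M : ℤ) q) {u v : (ZMod (M * q))ˣ}
    (h1 : ZMod.unitsMap (dvd_mul_right M q) u = ZMod.unitsMap (dvd_mul_right M q) v)
    (h2 : ZMod.unitsMap (dvd_mul_left q M) u = ZMod.unitsMap (dvd_mul_left q M) v) : u = v := by
  obtain ⟨a, ha⟩ := ZMod.intCast_surjective (u : ZMod (M * q))
  obtain ⟨b, hb⟩ := ZMod.intCast_surjective (v : ZMod (M * q))
  have e1 := congrArg Units.val h1
  have e2 := congrArg Units.val h2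
  rw [um_coe _ ha.symm, um_coe _ hb.symm] at e1 e2
  apply Units.ext
  rw [← ha, ← hb]
  exact cast_eq (by rw [Nat.cast_mul]; exact hc.mul_dvd (dvd_of_cast e1) (dvd_of_cast e2))

theorem parab {M q : ℕ} (hq : q.Prime) {H : Subgroup (ZMod (M * q))ˣ} (hs : TW.Split M q H) :
    ∀ γ ∈ GH (M * q) (up (dn H) q), (γ : M2).trace = 2 → γ ∈ GH (M * q) H := by
  rintro γ ⟨h1, u, ⟨a, ha, e⟩, eu⟩ ht
  rw [Matrix.trace_fin_two] at ht
  have d := det1 γ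
  obtain ⟨c, hc⟩ := id h1
  push_cast at hc
  have h2 : (q : ℤ) ∣ (γ 1 1 - 1) ^ 2 :=
    ⟨-(γ 0 1 * M * c), by linear_combination γ 1 1 * ht - d - γ 0 1 * hc⟩
  have h3 : ZMod.unitsMap (dvd_mul_left q M) u = 1 := Units.ext (by
    rw [um_coe _ eu, cast_eq ((Nat.prime_iff_prime_int.1 hq).dvd_of_dvd_pow h2)]; simp)
  have h4 := hs a⁻¹ (inv_mem ha) (u / a) (by rw [map_div, e, div_self'])
    (by rw [map_div, h3, map_inv, one_div])
  exact ⟨h1, u, by simpa using mul_mem h4 ha, eu⟩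

theorem cyc (X : Mdl) (hR : GRP) (hA : ARTIN X) {M q : ℕ} (hq : q.Prime)
    (hc : IsCoprime (M : ℤ) q) (hN : Lv (M * q)) {H : Subgroup (ZMod (M * q))ˣ} (hH : -1 ∈ H) :
    letI := algL (le_up_dn H)
    FiniteDimensional (L (GH (M * q) (up (dn H) q))) (L (GH (M * q) H)) ∧
    IsGalois (L (GH (M * q) (up (dn H) q))) (L (GH (M * q) H)) ∧
    IsCyclic (L (GH (M * q) H) ≃ₐ[L (GH (M * q) (up (dn H) q))] L (GH (M * q) H)) ∧
    Module.finrank (L (GH (M * q) (up (dn H) q))) (L (GH (M * q) H)) ∣ q - 1 ∧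
    (∀ σ : L (GH (M * q) H) ≃ₐ[L (GH (M * q) (up (dn H) q))] L (GH (M * q) H),
      ∃ γ : SL(2, ℤ), ((M * q : ℕ) : ℤ) ∣ γ 1 0 ∧ ∀ x, ((σ x : L (GH (M * q) H)) : FF) = X.pg γ x) ∧
    ∀ γ ∈ GH (M * q) (up (dn H) q),
      ∃ σ : L (GH (M * q) H) ≃ₐ[L (GH (M * q) (up (dn H) q))] L (GH (M * q) H),
        ∀ x, ((σ x : L (GH (M * q) H)) : FF) = X.pg γ x := by
  letI := algL (le_up_dn H)
  haveI : Fact q.Prime := ⟨hq⟩
  obtain ⟨fi, -, -, -, -, -, -, r8⟩ := hR _ hN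
  obtain ⟨-, hm, hn⟩ := r8 H
  haveI := fi
  obtain ⟨fd, a1⟩ := hA _ _ (le_up_dn H) (Subgroup.finiteIndex_of_le (hm hH).lo)
  obtain ⟨ga, a2, a3⟩ := a1 fun γ hγ => hn γ hγ.1
  choose g g1 g2 using exists_mat hN.pos
  have gm : ∀ u : (ZMod.unitsMap (dvd_mul_right M q)).ker, g u ∈ GH (M * q) (up (dn H) q) :=
    fun u => ⟨g1 u, u, Subgroup.mem_comap.2 (by rw [u.2]; exact one_mem _), g2 u⟩
  choose s hs using fun u => a3 _ (gm u)
  have mul11 : ∀ γ δ : SL(2, ℤ), ((M * q : ℕ) : ℤ) ∣ γ 1 0 →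
      (((γ * δ) 1 1 : ℤ) : ZMod (M * q)) = ((γ 1 1 : ℤ) : ZMod (M * q)) * (δ 1 1 : ℤ) := by
    intro γ δ h
    rw [mul_ent, Int.cast_add, Int.cast_mul, Int.cast_mul,
      (ZMod.intCast_zmod_eq_zero_iff_dvd _ _).2 h, zero_mul, zero_add]
  have mul10 : ∀ γ δ : SL(2, ℤ), ((M * q : ℕ) : ℤ) ∣ γ 1 0 → ((M * q : ℕ) : ℤ) ∣ δ 1 0 →
      ((M * q : ℕ) : ℤ) ∣ (γ * δ) 1 0 := fun γ δ h h' => by
    rw [mul_ent]; exact dvd_add (h.mul_right _) (h'.mul_left _)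
  let Φ := MonoidHom.mk' s fun u v => AlgEquiv.ext fun x => Subtype.ext (by
    rw [AlgEquiv.mul_apply, hs, hs, hs, pg_mul]
    refine pg_congr X x.2 (g1 _) (mul10 _ _ (g1 _) (g1 _)) (dvd_of_cast ?_)
    rw [mul11 _ _ (g1 _), ← g2, ← g2, ← g2, Subgroup.coe_mul, Units.val_mul]
    exact mul_comm _ _)
  have hΦ : Function.Surjective Φ := fun σ => by
    obtain ⟨γ, ⟨h1, u, ⟨a, ha, e⟩, eu⟩, h2⟩ := a2 σ
    refine ⟨⟨u / a, by rw [MonoidHom.mem_ker, map_div, e, div_self']⟩,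
      AlgEquiv.ext fun x => Subtype.ext ?_⟩
    show ((s _ x : L _) : FF) = _
    rw [hs, h2]
    conv_lhs => rw [← (mem_L_iff X).1 x.2 (g a) ⟨g1 a, a, ha, g2 a⟩, pg_mul]
    refine pg_congr X x.2 (mul10 _ _ (g1 _) (g1 _)) h1 (dvd_of_cast ?_)
    rw [mul11 _ _ (g1 _), ← g2, ← g2, ← eu, ← Units.val_mul, mul_div_cancel]
  let f := (ZMod.unitsMap (dvd_mul_left q M)).comp (ZMod.unitsMap (dvd_mul_right M q)).ker.subtype
  have hf : Function.Injective f := fun u v e =>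
    Subtype.ext (crt hN.pos hc (u.2.trans v.2.symm) e)
  haveI := isCyclic_of_injective f hf
  refine ⟨fd, ga, isCyclic_of_surjective Φ hΦ, ?_, fun σ => ?_, a3⟩
  · rw [← IsGalois.card_aut_eq_finrank, ← ZMod.card_units q, ← Nat.card_eq_fintype_card]
    exact (Subgroup.card_dvd_of_surjective Φ hΦ).trans (Subgroup.card_dvd_of_injective f hf)
  · obtain ⟨γ, h1, h2⟩ := a2 σ
    exact ⟨γ, h1.1, h2⟩

theorem unr_cyc (hR : GRP) (hU : UNRAM) {M q : ℕ} (hq : q.Prime) (hN : Lv (M * q))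
    {H : Subgroup (ZMod (M * q))ˣ} (hH : -1 ∈ H) (hs : TW.Split M q H)
    [CFF Qb (L (GH (M * q) (up (dn H) q)))] [CFF Qb (L (GH (M * q) H))] :
    letI := algL (le_up_dn H)
    haveI := towerL (le_up_dn H)
    ∀ [Algebra.IsAlgebraic (L (GH (M * q) (up (dn H) q))) (L (GH (M * q) H))],
      IsUnr Qb (L (GH (M * q) (up (dn H) q))) (L (GH (M * q) H)) :=
  hU _ _ _ (le_up_dn H) (((hR _ hN).2.2.2.2.2.2.2 _).2.1 (neg_up (neg_dn hH) q))
    (((hR _ hN).2.2.2.2.2.2.2 _).2.1 hH) (parab hq hs)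

end Vale.Agent.P027M.J
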