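import Vale.Agent.P027M.J.W2
import Vale.Agent.P027M.G.Mod0
import Vale.Agent.P027M.I.Spec2
import Vale.Agent.P027M.TW.InC
import Vale.Agent.P027M.TW.Spl
import Vale.Agent.P027M.TW.Cy
import Vale.Agent.P027M.TW.Ram

/-! # P027 route M, block J: inertia at a prime which divides the level exactly -/

set_option linter.all false

open scoped MatrixGroups IntermediateField

noncomputable section

namespace Vale.Agent.P027M.J.Igu

open NumberField Vale.Agent.P022 Vale.Agent.P022.H218.L3 Vale.Agent.P022.H231.L3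
  Vale.Agent.P019P P025H746 P025H492 P025H816 Vale.Agent.P027M.M Vale.Agent.P027M.TW
  Vale.Agent.P027M.G

theorem ze_z (N : ℕ) (b : ℤ) : ze N b = ze N 1 ^ b := by
  rw [ze, ze, ← Complex.exp_int_mul]
  congr 1
  push_cast
  ring

theorem ze_N {N : ℕ} (h : 0 < N) : ze N 1 ^ N = 1 := by
  have h0 : (N : ℂ) ≠ 0 := by exact_mod_cast h.ne'
  rw [ze, ← Complex.exp_nat_mul, ← Complex.exp_two_pi_mul_I]
  congr 1
  push_cast
  field_simp

theorem cyc_of {N : ℕ} (h : 0 < N) {g : GQ} {u : (ZMod N)ˣ} (hu : IsCy N g u) {k : ℤ}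
    (hk : (u : ZMod N) = k) : Cyc N g k := by
  haveI : NeZero N := ⟨h.ne'⟩
  intro a ha
  have h1 : a ^ N = 1 := (io : Qb →+* ℂ).injective (by
    rw [map_pow, map_one]
    exact ha ▸ ze_N h)
  obtain ⟨c, hc⟩ : (N : ℤ) ∣ k - ((u : ZMod N).val : ℤ) :=
    (ZMod.intCast_zmod_eq_zero_iff_dvd _ _).1 (by push_cast; rw [ZMod.natCast_zmod_val, hk, sub_self])
  rw [hu a h1, map_pow, ha, ze_z N k, show k = ((u : ZMod N).val : ℤ) + N * c by linear_combination hc,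
    zpow_add₀ (ze_ne _ _), zpow_mul, zpow_natCast, zpow_natCast, ze_N h, one_zpow, mul_one]

theorem cy_eq {M : ℕ} (h0 : 0 < M) {g : GQ} {u u' : (ZMod M)ˣ} (h : IsCy M g u)
    (h' : IsCy M g u') : u = u' := by
  obtain ⟨c, -, c2, -⟩ := cy.2 M h0
  rw [c2 g u h, c2 g u' h']

theorem cy_low {M q : ℕ} (h0 : 0 < M) (hq : q.Prime) (hM : ¬ q ∣ M) {P : Ideal (𝓞 Qb)}
    (hP : P.IsPrime) (hl : (q : 𝓞 Qb) ∈ P) {g : GQ} (hg : S.Inert P g) {u : (ZMod (M * q))ˣ}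
    (h : IsCy (M * q) g u) : ZMod.unitsMap (dvd_mul_right M q) u = 1 := by
  obtain ⟨c, -, c2, -, c4, -⟩ := cy.2 (M * q) (Nat.mul_pos h0 hq.pos)
  obtain ⟨c', -, c2', -, -, c5⟩ := cy.2 M h0
  rw [c2 g u h, c2' g _ (c4 M _ g), (c5 q hq hM).2 P hP hl g hg]

theorem ex_inert {M q : ℕ} (h0 : 0 < M) (hq : q.Prime) (hM : ¬ q ∣ M) {P : Ideal (𝓞 Qb)}
    (hP : P.IsPrime) (hl : (q : 𝓞 Qb) ∈ P) {τ : (ZMod (M * q))ˣ}
    (hτ : ZMod.unitsMap (dvd_mul_right M q) τ = 1) : ∃ g, S.Inert P g ∧ IsCy (M * q) g τ := by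
  obtain ⟨g, h1, h2⟩ := ram q hq P hP hl (ZMod.unitsMap (dvd_mul_left q M) τ)
  obtain ⟨c, c1, -, -, c4, -⟩ := cy.2 (M * q) (Nat.mul_pos h0 hq.pos)
  refine ⟨g, h1, ?_⟩
  rw [Spl.crt_inj ((hq.coprime_iff_not_dvd.2 hM).symm) (hτ.trans (cy_low h0 hq hM hP hl h1 (c1 g)).symm)
    (cy_eq hq.pos h2 (c4 q _ g))]
  exact c1 g

/-- the group below -/
def low {M q : ℕ} (H : Subgroup (ZMod (M * q))ˣ) : Subgroup (ZMod M)ˣ :=
  H.map (ZMod.unitsMap (dvd_mul_right M q))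

theorem le_up {M q : ℕ} (H : Subgroup (ZMod (M * q))ˣ) :
    GH (M * q) H ≤ GH (M * q) (up (low H) q) :=
  fun _ ⟨m1, u, hu, m2⟩ => ⟨m1, u, ⟨u, hu, rfl⟩, m2⟩

theorem ok_low {M q : ℕ} {H : Subgroup (ZMod (M * q))ˣ} (h : Ok (M * q) H) (hq : GoodP M q) :
    Ok M (low H) where
  pos := Nat.pos_of_mul_pos_right h.pos
  four := by
    have h2 : ¬ q ∣ 2 := fun d => hq.2 ((d.trans (by norm_num : 2 ∣ 6)).mul_right M)
    exact (Nat.Coprime.pow_left 2 ((hq.1.coprime_iff_not_dvd.2 h2).symm)).dvd_of_dvd_mul_right h.four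
  three := fun d => h.three (d.mul_right q)
  neg := ⟨-1, h.neg, Units.ext (by simp [ZMod.unitsMap_def])⟩

/-- the cover by the diamonds at `q` -/
theorem cover {X : Mdl} (hX : MIn X) {M q : ℕ} {H : Subgroup (ZMod (M * q))ˣ} (h : Ok (M * q) H)
    (hq : GoodP M q) (hs : Split M q H) [CFF Qb (L (GH (M * q) H))]
    [CFF Qb (L (GH (M * q) (up (low H) q)))] :
    letI := algL (le_up H)
    haveI := towerL (le_up H)
    ∃ (_ : FiniteDimensional (L (GH (M * q) (up (low H) q))) (L (GH (M * q) H)))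
      (_ : IsGalois (L (GH (M * q) (up (low H) q))) (L (GH (M * q) H))),
      Module.finrank (L (GH (M * q) (up (low H) q))) (L (GH (M * q) H)) ∣ q - 1 ∧
      IsUnr Qb (L (GH (M * q) (up (low H) q))) (L (GH (M * q) H)) ∧
      IsCyclic (L (GH (M * q) H) ≃ₐ[L (GH (M * q) (up (low H) q))] L (GH (M * q) H)) ∧
      (∀ γ ∈ GH (M * q) (up (low H) q),
        ∃ g : L (GH (M * q) H) ≃ₐ[L (GH (M * q) (up (low H) q))] L (GH (M * q) H),
          ∀ x, ((g x : L (GH (M * q) H)) : FF) = X.pg γ x) ∧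
      ∀ g : L (GH (M * q) H) ≃ₐ[L (GH (M * q) (up (low H) q))] L (GH (M * q) H),
        ∃ γ ∈ GH (M * q) (up (low H) q), ∀ x, ((g x : L (GH (M * q) H)) : FF) = X.pg γ x := by
  letI := algL (le_up H)
  haveI := towerL (le_up H)
  haveI := Fact.mk hq.1
  have hM : ¬ q ∣ M := (In.good hq 0).1
  have hc : M.Coprime q := (hq.1.coprime_iff_not_dvd.2 hM).symm
  have h' := In.ok_up (ok_low h hq) hq
  let J : Subgroup (ZMod q)ˣ := H.map (ZMod.unitsMap (dvd_mul_left q M))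
  let d : (ZMod (M * q))ˣ →* (ZMod q)ˣ ⧸ J :=
    (QuotientGroup.mk' J).comp (ZMod.unitsMap (dvd_mul_left q M))
  have hd : ∀ u, d u = 1 ↔ ZMod.unitsMap (dvd_mul_left q M) u ∈ J := fun u =>
    QuotientGroup.eq_one_iff _
  have hH : ∀ u, u ∈ H ↔ u ∈ up (low H) q ∧ d u = 1 := fun u =>
    ⟨fun hu => ⟨⟨u, hu, rfl⟩, (hd u).2 ⟨u, hu, rfl⟩⟩, fun ⟨⟨a, ha, e1⟩, h2⟩ => by
      obtain ⟨b, hb, e2⟩ := (hd u).1 h2
      have := hs (b / a) (div_mem hb ha) (u / a) (by rw [map_div, e1, div_self'])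
        (by rw [map_div, map_div, e2])
      simpa using mul_mem this ha⟩
  haveI fd := (hX.artin _ _ (le_up H) (In.fidx hX.grp h)).1
  have hsd : ∀ δ, ∃ u ∈ up (low H) q, d u = δ := fun δ => by
    obtain ⟨x, rfl⟩ := QuotientGroup.mk'_surjective J δ
    obtain ⟨y, y1, y2⟩ := Spl.crt_ex hc 1 x
    exact ⟨y, by
      show ZMod.unitsMap _ y ∈ low H
      rw [y1]; exact one_mem _, congrArg (QuotientGroup.mk' J) y2⟩
  obtain ⟨g1, θ, t1, t2⟩ := In.ex_theta (Δ := (ZMod q)ˣ ⧸ J) (d := d) hX h' h hH hsd (le_up H)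
  haveI := g1
  haveI : IsCyclic ((ZMod q)ˣ ⧸ J) := isCyclic_of_surjective _ (QuotientGroup.mk'_surjective J)
  refine ⟨fd, g1, ?_, ?_, isCyclic_of_surjective θ t1.2, fun γ ⟨m1, u, hu, m2⟩ =>
    ⟨θ (d u), t2 u hu γ ⟨m1, m2⟩⟩, fun g => ?_⟩
  · rw [← IsGalois.card_aut_eq_finrank, ← Nat.card_eq_of_bijective θ t1, ← ZMod.card_units q,
      ← Nat.card_eq_fintype_card]
    exact Subgroup.card_quotient_dvd_card J
  · refine hX.unram (M * q) _ _ (le_up H) (In.mid hX.grp h') (In.mid hX.grp h)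
      fun γ ⟨m1, u, hu, m2⟩ ht => ⟨m1, u, (hH u).2 ⟨hu, (hd u).2 ?_⟩, m2⟩
    have a1 : ZMod.unitsMap (dvd_mul_left q M) u ^ q = 1 := In.Dm.unip (γ := γ)
      ⟨(Int.natCast_dvd_natCast.2 (dvd_mul_left q M)).trans m1, um_coe _ m2⟩ ht
    have a2 := ZMod.units_pow_card_sub_one_eq_one q (ZMod.unitsMap (dvd_mul_left q M) u)
    have a3 : ZMod.unitsMap (dvd_mul_left q M) u = 1 := by
      rw [← a1, ← pow_mul_pow_sub _ hq.1.one_le, a2, pow_one, mul_one]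
    rw [a3]
    exact one_mem _
  · obtain ⟨δ, rfl⟩ := t1.2 g
    obtain ⟨x, rfl⟩ := QuotientGroup.mk'_surjective J δ
    obtain ⟨y, y1, y2⟩ := Spl.crt_ex hc 1 x
    have hy : y ∈ up (low H) q := by
      show ZMod.unitsMap _ y ∈ low H
      rw [y1]; exact one_mem _
    obtain ⟨γ, hγ⟩ := In.ex_dm h.pos.ne' y
    refine ⟨γ, hγ.mem.2 hy, fun z => ?_⟩
    rw [← t2 y hy γ hγ z, ← y2]
    rfl

/-- the norm on the other side -/
def side {A : AV} (w : NV (Qv A) FF) (W : FF ≃ₐ[Qb] FF) (Γ : Subgroup SL(2, ℤ)) :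
    NV (Qv A) (L Γ) where
  av := w.av.comp (f := (W : FF →+* FF).comp (algebraMap (L Γ) FF)) (RingHom.injective _)
  na x y := by
    change w (W ((x + y : L Γ) : FF)) ≤ max (w (W x)) (w (W y))
    rw [IntermediateField.coe_add, map_add]
    exact w.na _ _
  ext' c := (congrArg w (W.commutes c)).trans (w.ext' c)

theorem side_apply {A : AV} (w : NV (Qv A) FF) (W : FF ≃ₐ[Qb] FF) (Γ : Subgroup SL(2, ℤ))
    (x : L Γ) : side w W Γ x = w (W x) := rfl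

/-- the statement on representatives gives the statement on classes -/
theorem to_cl {Γ : Subgroup SL(2, ℤ)} [CFF Qb (L Γ)] {m : ℕ} {σ s τ : L Γ ≃+* L Γ}
    {a b c : HA Qb (L Γ) m →+ HA Qb (L Γ) m} {σ' s' τ' : FF → FF} (ha : Rep σ' a) (hb : Rep s' b)
    (hc : Rep τ' c) (e1 : ∀ x, ((σ x : L Γ) : FF) = σ' x) (e2 : ∀ x, ((s x : L Γ) : FF) = s' x)
    (e3 : ∀ x, ((τ x : L Γ) : FF) = τ' x)
    (h : ∀ f : L Γ, f ≠ 0 → (∀ P : Plk Qb (L Γ), (m : ℤ) ∣ ord P f) → ∀ A B : L Γ, A = σ f / f →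
      B = σ A / s A → ∃ z : L Γ, z ≠ 0 ∧ τ B = B * z ^ m) (y : HA Qb (L Γ) m) :
    c (a (a y - y) - b (a y - y)) = a (a y - y) - b (a y - y) := by
  obtain ⟨f, hf, rfl⟩ := cl_surj y
  obtain ⟨f1, hf1, p1, q1⟩ := ha f hf
  rw [q1, ← cl_div]
  obtain ⟨f2, hf2, p2, q2⟩ := ha _ (div_mem hf1 hf)
  obtain ⟨f3, hf3, p3, q3⟩ := hb _ (div_mem hf1 hf)
  rw [q2, q3, ← cl_div]
  obtain ⟨f4, hf4, p4, q4⟩ := hc _ (div_mem hf2 hf3)
  have r1 : (f1 : L Γ) = σ f := Subtype.ext (p1.trans (e1 _).symm)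
  have r2 : (f2 : L Γ) = σ (f1 / f : (L Γ)ˣ) := Subtype.ext (p2.trans (e1 _).symm)
  have r3 : (f3 : L Γ) = s (f1 / f : (L Γ)ˣ) := Subtype.ext (p3.trans (e2 _).symm)
  have r4 : (f4 : L Γ) = τ (f2 / f3 : (L Γ)ˣ) := Subtype.ext (p4.trans (e3 _).symm)
  obtain ⟨z, -, hz⟩ := h f f.ne_zero hf (f1 / f : (L Γ)ˣ) (f2 / f3 : (L Γ)ˣ)
    (by rw [Units.val_div_eq_div_val, r1]) (by rw [Units.val_div_eq_div_val, r2, r3])
  rw [q4, cl_eq, mem_powU']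
  exact ⟨z, by rw [Units.val_div_eq_div_val, r4, hz, mul_div_cancel_left₀ _ (Units.ne_zero _)]⟩

end Vale.Agent.P027M.J.Igu
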