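import Vale.Agent.P027M.J.IguA
import Vale.Agent.P027M.J.Dic

/-! # P027 route M, block J: inertia at a prime which divides the level exactly, assembly -/

set_option linter.all false

open scoped MatrixGroups IntermediateField

noncomputable section

namespace Vale.Agent.P027M.J.Igu

open NumberField Vale.Agent.P022 Vale.Agent.P022.H218.L3 Vale.Agent.P022.H231.L3
  Vale.Agent.P019P P025H746 P025H492 P025H816 Vale.Agent.P027M.M Vale.Agent.P027M.TW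
  Vale.Agent.P027M.G

/-- the curve of level `Γ₀(q)` has two components which meet in nodes -/
def NOD (X : Mdl) : Prop := ∀ (M q : ℕ) (hq : GoodP M q) (H : Subgroup (ZMod M)ˣ), Ok M H →
  ∀ (P : Ideal (𝓞 Qb)) (A : AV) (O : ValuationSubring ℂ) (w : NV (Qv A) FF), Dic q P A O w →
  ∀ γ, AL M q γ → (M : ℤ) ∣ γ 1 1 - 1 → ∀ [CFF Qb (L (GH (M * q) (up H q)))],
  ∃ (T : L (GH (M * q) (up H q))) (_ : FiniteDimensional (Qv A)⟮T⟯ (L (GH (M * q) (up H q))))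
    (v : Fin 2 → I.WW (Qv A) T) (S : Finset (I.Br (Qv A) T)), (∀ g, X.gal g T = T) ∧
    I.Full (Qv A) T ∧ I.Nodal (Qv A) T S ∧ v 0 ≠ v 1 ∧ (∀ u, ∃ i, u = v i) ∧
    (∀ b b' : I.Br (Qv A) T, b.w = b'.w → I.Glue b b' → b = b') ∧ (∀ y, (v 0).1 y = w y) ∧
    ∀ y, (v 1).1 y = w (Wq X hq.1.pos γ y)

theorem inr {X : Mdl} (hX : MIn X) (hE : M.EXP) (hC : CF) (hS : SHIM X) (hG : WGAL X) {M q : ℕ}
    {H : Subgroup (ZMod (M * q))ˣ} (h : Ok (M * q) H) (hq : GoodP M q) {P : Ideal (𝓞 Qb)}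
    (hP : P.IsPrime) (hl : (q : 𝓞 Qb) ∈ P) {A : AV} {O : ValuationSubring ℂ} {w : NV (Qv A) FF}
    (hD : Dic q P A O w) {γ : SL(2, ℤ)} (hγ : AL M q γ) {K₀ : Type} [Field K₀]
    [Algebra K₀ (L (GH (M * q) H))] {T : L (GH (M * q) H)} (hT : ∀ g, X.gal g T = T)
    (hc : ∀ g : L (GH (M * q) H) ≃ₐ[K₀] L (GH (M * q) H), ∃ ε : SL(2, ℤ),
      ((M * q : ℕ) : ℤ) ∣ ε 1 0 ∧ ∀ x, ((g x : L (GH (M * q) H)) : FF) = X.pg ε x)
    {σ : GQ} (hσ : S.Inert P σ) {u : (ZMod (M * q))ˣ} (hu : IsCy (M * q) σ u) {δ : SL(2, ℤ)}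
    (hδ : In.Dm (M * q) u δ) {s : L (GH (M * q) H) ≃ₐ[K₀] L (GH (M * q) H)}
    (hs : ∀ x, ((s x : L (GH (M * q) H)) : FF) = X.pg δ x) :
    I.Inr (Qv A) T ![side w AlgEquiv.refl _, side w (Wq X hq.1.pos γ) _]
      (resR (X.gal σ) (gal_mem_iff X hX.hec3 h.lv h.neg σ)) s := by
  obtain ⟨i1, i2⟩ := hD.ine σ hσ
  obtain ⟨g1, g2⟩ := hG A O w hD.on hD.inf σ i1
  have h0 : 0 < M := Nat.pos_of_mul_pos_right h.pos
  have s1 : (M : ℤ) ∣ δ 1 1 - 1 := dvd_of_cast (by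
    rw [← um_coe (dvd_mul_right M q) hδ.2, cy_low h0 hq.1 (In.good hq 0).1 hP hl hσ hu]
    simp)
  have key : ∀ y : L (GH (M * q) H), Wq X hq.1.pos γ (X.gal σ y) =
      X.gal σ (Wq X hq.1.pos γ (s y : L (GH (M * q) H))) := fun y => by
    rw [hs]
    exact (gal_Wq X hq.1.pos hE hX.galx hX.grp hC hS hX.hec3 hγ h.lv h.neg
      (cyc_of h.pos hu hδ.2) hδ.1 s1 (by rw [sub_self]; exact dvd_zero _) y.2).symm
  refine ⟨⟨(σ : Qb ≃+* Qb), fun c => Subtype.ext (hX.galx.2.1 σ c), i1⟩, Subtype.ext (hT σ),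
    fun g y => Subtype.ext ?_, fun y => g1 y, fun y hy => g2 i2 y hy, fun y => ?_, fun y hy => ?_⟩
  · obtain ⟨ε, e0, e1⟩ := hc g
    rw [resR_coe, e1, e1, resR_coe]
    exact (hX.hec3 _ H h.lv h.neg y y.2 σ).2.1 ε e0
  · change w (Wq X hq.1.pos γ (X.gal σ y)) = w (Wq X hq.1.pos γ (s y : L (GH (M * q) H)))
    rw [key, g1]
  · change w (Wq X hq.1.pos γ (X.gal σ y - (s y : L (GH (M * q) H)))) < 1
    rw [map_sub, key]
    exact g2 i2 _ hy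

theorem reorder {B : Type} [AddCommGroup B] {a b c : AddMonoid.End B} (h1 : Commute c a)
    (h2 : Commute c b) (h3 : Commute b a)
    (h : ∀ y, c (a (a y - y) - b (a y - y)) = a (a y - y) - b (a y - y)) (y : B) :
    a (a (c y - y) - b (c y - y)) = a (c y - y) - b (c y - y) := by
  have e1 : ∀ x, c (a x) = a (c x) := fun x => DFunLike.congr_fun h1.eq x
  have e2 : ∀ x, c (b x) = b (c x) := fun x => DFunLike.congr_fun h2.eq x
  have e3 : ∀ x, b (a x) = a (b x) := fun x => DFunLike.congr_fun h3.eq x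
  have := h y
  simp only [map_sub, e1, e2, e3] at this ⊢
  rw [← sub_eq_zero] at this ⊢
  rw [← this]
  abel

/-- **inertia at `q`** -/
theorem igu_of {X : Mdl} (hX : MIn X) (hE : M.EXP) (hC : CF) (hS : SHIM X) (hAV : AVE) (hW : WINF)
    (hG : WGAL X) (hI : I.I1B) (hN : NOD X) : InIGU X := by
  intro M q H j h hj hq hs _ A P hP hl σ hσ s hcy τ hτ y z w' hz hw
  have h0 : 0 < M := Nat.pos_of_mul_pos_right h.pos
  have hM : ¬ q ∣ M := (In.good hq 0).1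
  obtain ⟨B, O, w, hD⟩ := dic hAV hW hq.1 hP hl
  obtain ⟨γ, hγ, hγ1⟩ := exists_AL (M := M) (q := q)
    (Nat.isCoprime_iff_coprime.2 (hq.1.coprime_iff_not_dvd.2 hM).symm)
  have h' := In.ok_up (ok_low h hq) hq
  haveI : CFF Qb (L (GH (M * q) (up (low H) q))) := hX.cffs _ (In.mid hX.grp h').hi (In.fidx hX.grp h')
  obtain ⟨T, fT, v, S, hT, a1, a2, a3, a4, a5, a6, a7⟩ :=
    hN M q hq (low H) (ok_low h hq) P B O w hD γ hγ hγ1
  letI := algL (le_up H)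
  haveI := towerV B (le_up H)
  obtain ⟨fd, ga, c1, c2, c3, c4, c5⟩ := cover hX h hq hs
  obtain ⟨σ₀, hσ₀, hcy₀⟩ := ex_inert h0 hq.1 hM hP hl hτ
  obtain ⟨δ, hδ⟩ := In.ex_dm h.pos.ne' s
  obtain ⟨δ₀, hδ₀⟩ := In.ex_dm h.pos.ne' τ
  obtain ⟨t, ht⟩ := c4 δ (hδ.mem.2 (by
    show ZMod.unitsMap _ s ∈ low H
    rw [cy_low h0 hq.1 hM hP hl hσ hcy]; exact one_mem _))
  obtain ⟨t₀, ht₀⟩ := c4 δ₀ (hδ₀.mem.2 (by
    show ZMod.unitsMap _ τ ∈ low H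
    rw [hτ]; exact one_mem _))
  have hc := fun g => (c5 g).imp fun ε (e : _ ∧ _) => And.intro e.1.1 e.2
  have n1 : ¬ q ∣ Module.finrank (L (GH (M * q) (up (low H) q))) (L (GH (M * q) H)) := fun d =>
    absurd (Nat.le_of_dvd (Nat.sub_pos_of_lt hq.1.one_lt) (d.trans c1))
      (not_le.2 (Nat.sub_lt hq.1.pos one_pos))
  have main := hI (Qv B) (L (GH (M * q) (up (low H) q))) (L (GH (M * q) H)) T v S
    ![side w AlgEquiv.refl _, side w (Wq X hq.1.pos γ) _] (3 ^ j) _ _ t t₀ (hD.ne _ n1) c2 c3 a1 a2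
    a3 a4 a5 (Fin.forall_fin_two.2 ⟨fun y => (a6 y).symm, fun y => (a7 y).symm⟩)
    (hD.ne _ (In.good hq j).2)
    (inr hX hE hC hS hG h hq hP hl hD hγ (T := algebraMap _ _ T) hT hc hσ hcy hδ ht)
    (inr hX hE hC hS hG h hq hP hl hD hγ (T := algebraMap _ _ T) hT hc hσ₀ hcy₀ hδ₀ ht₀)
  obtain ⟨-, -, -, k1, -⟩ := hX.comm _ H h.lv h.neg (3 ^ j) A
  rw [hw, hz]
  exact reorder (k1 τ σ) ((Commute.all τ s).map A.dia) (k1 s σ)
    (to_cl (s := t.toRingEquiv) (τ := t₀.toRingEquiv) (A.act_rep σ) (A.dia_rep s δ hδ.1 hδ.2)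
      (A.dia_rep τ δ₀ hδ₀.1 hδ₀.2) (fun _ => rfl) ht ht₀ main) y

end Vale.Agent.P027M.J.Igu
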