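import Vale.Agent.P027M.J.KrB
import Vale.Agent.P027M.J.Spec

/-! # P027 route M, block J: the row KRM -/

set_option linter.all false

open scoped MatrixGroups IntermediateField

noncomputable section

namespace Vale.Agent.P027M.J

open NumberField Vale.Agent.P022 P025H373 P025H746 Vale.Agent.P019P P025H492 Vale.Agent.P027M.M
  Vale.Agent.P027M.G Vale.Agent.P027M.M.Hec

theorem krm (X : Mdl) (hE : M.EXP) (hC : M.PLC X) (hAr : ARTIN X) (hR : GRP) (hF : CFFS)
    (hFa : M.FAITH X) (hG : GALX X) (hCF : CF) (hM : MODG X) (hU : UNRM X) (hK : KRO1 X) :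
    KRM X := by
  intro M q hq H hL hH hqM P A O w d γ h h1 hle h0 _ _ W hW
  letI := algL hle
  haveI := towerV A hle
  have m := ((hR M hL).2.2.2.2.2.2.2 H).2.1 hH
  obtain ⟨-, m0⟩ := mid_up hR hq.pos hL hH
  haveI := (hR _ m0.lv).1
  have g1 := (good_T X hM m d.on d.inf (d.inv M hqM) (la_coe X h0)).1
  haveI := g1.full.fin
  obtain ⟨φ, hφ⟩ := d.ex
  have k := hK A O w d.on d.inf q hq d.lt φ (d.fro φ hφ).2 ((2 - X.t) / 4)
    (pg_la X hL (by rw [show ModularGroup.T 1 0 = 0 from rfl]; exact dvd_zero _))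
    g1.og.apply_T.le
  rw [gal_Vq X hq.pos hE hG hR hCF, gal_la X hG] at k
  exact ⟨(hAr _ _ hle (Subgroup.finiteIndex_of_le m0.lo)).1, inferInstance, ⟨_, g1.og⟩,
    haveI := (hAr _ _ hle (Subgroup.finiteIndex_of_le m0.lo)).1
    (kr0 X hE hC hAr hR hF hFa hM hU hq hqM hL hH h h1 d.on d.inf (d.inv M hqM) d.chr k hle
      (la_coe X h0) hW rfl).kr⟩

end Vale.Agent.P027M.J
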