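import Vale.Agent.P027M.G.Unrm
import Vale.Agent.P027M.I.Kr0

/-! # P027 route M, block J: the parameter with the branch points `0`, `1`, `∞` -/

set_option linter.all false

noncomputable section

namespace Vale.Agent.P027M.J

open IntermediateField P025H373 P025H746 Vale.Agent.P019P P025H492 Vale.Agent.P027M.G

theorem adjoin_mul {k F : Type} [Field k] [Field F] [Algebra k F] (x : F) {a : k} (ha : a ≠ 0) :
    k⟮algebraMap k F a * x⟯ = k⟮x⟯ := by
  refine le_antisymm (adjoin_simple_le_iff.2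
    (mul_mem (IntermediateField.algebraMap_mem _ a) (mem_adjoin_simple_self k x)))
    (adjoin_simple_le_iff.2 ?_)
  have := mul_mem (IntermediateField.algebraMap_mem _ a⁻¹)
    (mem_adjoin_simple_self k (algebraMap k F a * x))
  rwa [← mul_assoc, ← map_mul, inv_mul_cancel₀ ha, map_one, one_mul] at this

variable {C K : Type} [NontriviallyNormedField C] [IsUltrametricDist C] [IsAlgClosed C] [Field K]
  [Algebra C K] [CFF C K] {w : NV C K} {t T : K}

theorem good_mul (h : Good w t) {a : C} (ha : ‖a‖ = 1) : Good w (algebraMap C K a * t) ∧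
    w.red (algebraMap C K a * t) = algebraMap (kC C) (kap w) (cred a) * w.red t := by
  have h0 : a ≠ 0 := fun e => by simp [e] at ha
  have h1 : w (algebraMap C K a) ≤ 1 := (w.ext' a).trans_le ha.le
  have h2 : cred a ≠ 0 := fun e => ((cred_eq_zero ha.le).1 e).ne ha
  have h3 := NV.red_mul h1 h.og.apply_T.le
  rw [NV.red_algebraMap ha.le] at h3
  refine ⟨h.chg (overG_of_transc (NV.mul_le_one h1 h.og.apply_T.le) ?_) (adjoin_mul t h0)
    (by rw [h3]; exact adjoin_mul _ h2), h3⟩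
  rw [h3]
  intro h4
  apply h.og.transc_red
  have := (isAlgebraic_algebraMap (cred a)⁻¹).mul h4
  rwa [← mul_assoc, ← map_mul, inv_mul_cancel₀ h2, map_one, one_mul] at this

/-- the parameter `(2 - t) / 4` -/
theorem good_la (h : Good w t) (h2 : ‖(2 : C)‖ = 1) (e : T = (2 - t) / 4) : Good w T ∧
    (2 : kC C) ≠ 0 ∧ w.red T = algebraMap (kC C) (kap w) (-4⁻¹) * (w.red t - 2) := by
  have c2 : (2 : kC C) ≠ 0 := fun e0 =>
    ((cred_eq_zero h2.le).1 (Unrm.cred_two.trans e0)).ne h2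
  have n4 : ‖(4 : C)‖ = 1 := by rw [show (4 : C) = 2 * 2 by norm_num, norm_mul, h2, mul_one]
  have c4 : cred (4 : C) = 4 := by
    rw [show (4 : C) = 2 * 2 by norm_num, cred_mul h2.le h2.le, Unrm.cred_two]
    norm_num
  have n5 : ‖(4⁻¹ : C)‖ = 1 := by rw [norm_inv, n4, inv_one]
  have c5 : cred (-4⁻¹ : C) = -4⁻¹ := by
    rw [← zero_sub (4⁻¹ : C), Gs.cred_sub (by simp) n5.le, cred_zero, Unrm.cred_inv n4, c4,
      zero_sub]
  have e1 : T = algebraMap C K (-4⁻¹) * (t - algebraMap C K 2) := by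
    rw [e, map_neg, map_inv₀, map_ofNat, map_ofNat]
    ring
  obtain ⟨g1, g2⟩ := good_mul (h.shift h2.le) (a := -4⁻¹) (by rwa [norm_neg])
  rw [(Gs.red_sub_const h.og.apply_T.le h2.le).2, c5, Unrm.cred_two, ← e1, map_ofNat] at g2
  exact ⟨e1 ▸ g1, c2, g2⟩

theorem etl_la {k κ : Type} [Field k] [Field κ] [Algebra k κ] [CFF k κ] {t T : κ}
    (c2 : (2 : k) ≠ 0) (e : T = algebraMap k κ (-4⁻¹) * (t - 2))
    (h : ∀ c : k, c ≠ 2 → c ≠ -2 → ∀ P : Plk k κ, 0 < ord P (t - algebraMap k κ c) →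
      ord P (t - algebraMap k κ c) = 1) : I.Etl k T := by
  intro c h0 h1 P hP
  have c4 : (4 : k) ≠ 0 := by
    rw [show (4 : k) = 2 * 2 by norm_num]
    exact mul_ne_zero c2 c2
  have e1 : T - algebraMap k κ c = algebraMap k κ (-4⁻¹) * (t - algebraMap k κ (2 - 4 * c)) := by
    have e2 : algebraMap k κ c = algebraMap k κ (-4⁻¹) * (algebraMap k κ (2 - 4 * c) - 2) := by
      rw [← map_ofNat (algebraMap k κ) 2, ← map_sub, ← map_mul]
      congr 1
      field_simp
      ring
    rw [e, e2]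
    ring
  have h3 : t - algebraMap k κ (2 - 4 * c) ≠ 0 := fun e0 => by
    rw [e1, e0, mul_zero, ord_zero] at hP
    exact lt_irrefl _ hP
  rw [e1, ord_mul P ((_root_.map_ne_zero _).2 (neg_ne_zero.2 (inv_ne_zero c4))) h3, ord_const,
    zero_add] at hP ⊢
  exact h _ (fun e0 => h0 (mul_left_cancel₀ c4 (by linear_combination -e0)))
    (fun e0 => h1 (mul_left_cancel₀ c4 (by linear_combination -e0))) P hP

end Vale.Agent.P027M.J
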