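import Vale.Agent.P027M.J.KrA
import Vale.Agent.P027M.J.Dic
import Vale.Agent.P027M.J.Cusp
import Vale.Agent.P027M.J.W2

/-! # P027 route M, block J: the Kronecker data of the modular curves -/

set_option linter.all false

open scoped MatrixGroups IntermediateField

noncomputable section

namespace Vale.Agent.P027M.J

open NumberField Vale.Agent.P022 P025H373 P025H746 Vale.Agent.P019P P025H492 Vale.Agent.P027M.M
  Vale.Agent.P027M.G Vale.Agent.P027M.M.Hec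

theorem pg_t (X : Mdl) {N : ℕ} (hN : Lv N) {D : SL(2, ℤ)} (h : (N : ℤ) ∣ D 1 0) :
    X.pg D X.t = X.t :=
  (mem_L_iff X).1 (X.tL (le_refl G0)).2 D (CongruenceSubgroup.Gamma0_mem.2
    ((ZMod.intCast_zmod_eq_zero_iff_dvd _ 4).2 ((Int.natCast_dvd_natCast.2 hN.four).trans h)))

theorem pg_la (X : Mdl) {N : ℕ} (hN : Lv N) {D : SL(2, ℤ)} (h : (N : ℤ) ∣ D 1 0) :
    X.pg D ((2 - X.t) / 4) = (2 - X.t) / 4 := by
  rw [map_div₀, map_sub, map_ofNat, map_ofNat, pg_t X hN h]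

theorem gal_la (X : Mdl) (hG : GALX X) (g : GQ) : X.gal g ((2 - X.t) / 4) = (2 - X.t) / 4 := by
  rw [map_div₀, map_sub, map_ofNat, map_ofNat, hG.2.2.1 g]

theorem Wq_Wq_la (X : Mdl) {M q : ℕ} (h0 : 0 < q) (hN : Lv (M * q)) {γ : SL(2, ℤ)}
    (h : AL M q γ) : Wq X h0 γ (Wq X h0 γ ((2 - X.t) / 4)) = (2 - X.t) / 4 := by
  obtain ⟨D, h1, -, -, e⟩ := Wq_sq X h0 h
  rw [e, pg_la X hN h1]

/-- good reduction for the parameter `(2 - t) / 4` -/
theorem good_T (X : Mdl) (hM : MODG X) {A : AV} {O : ValuationSubring ℂ} {w : NV (Qv A) FF}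
    {N : ℕ} {Γ : Subgroup SL(2, ℤ)} (m : Mid N Γ) [CFF Qb (L Γ)] (hA : A.On O) (hw : Inf O w)
    (hN : (N : ℂ)⁻¹ ∈ O) {T : L Γ} (hT : (T : FF) = (2 - X.t) / 4) :
    G.Good (w.comap (L Γ)) T ∧ (2 : kC (Qv A)) ≠ 0 ∧ (w.comap (L Γ)).red T =
      algebraMap (kC (Qv A)) _ (-4⁻¹) * ((w.comap (L Γ)).red (X.tL m.hi) - 2) :=
  good_la (hM A O w N Γ m hA hw hN) (Modg.norm_two hA m.lv hN) (Subtype.ext hT)

/-- **the Kronecker data** -/
theorem kr0 (X : Mdl) (hE : M.EXP) (hC : M.PLC X) (hAr : ARTIN X) (hR : GRP) (hF : CFFS)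
    (hFa : M.FAITH X) (hM : MODG X) (hU : UNRM X) {M q : ℕ} (hq : q.Prime) (hqM : ¬ q ∣ M)
    (hL : Lv M) {H : Subgroup (ZMod M)ˣ} (hH : -1 ∈ H) {γ : SL(2, ℤ)} (h : AL M q γ)
    (h1 : (M : ℤ) ∣ γ 1 1 - 1) {A : AV} {O : ValuationSubring ℂ} {w : NV (Qv A) FF}
    (hA : A.On O) (hw : Inf O w) (hN : (M : ℂ)⁻¹ ∈ O) (hc : (q : kC (Qv A)) = 0)
    (hk : w (Vq X hq.pos ((2 - X.t) / 4) - ((2 - X.t) / 4) ^ q) < 1)
    [CFF Qb (L (GH M H))] [CFF Qb (L (GH (M * q) (up H q)))] (hle : GH (M * q) (up H q) ≤ GH M H)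
    {T : L (GH M H)} (hT : (T : FF) = (2 - X.t) / 4) [FiniteDimensional (Qv A)⟮T⟯ (L (GH M H))]
    {W : L (GH (M * q) (up H q)) ≃ₐ[Qv A] L (GH (M * q) (up H q))}
    (hW : ∀ x, ((W x : L (GH (M * q) (up H q))) : FF) = Wq X hq.pos γ x) {u' : I.WW (Qv A) T}
    (hu : u'.1 = w.comap (L (GH M H))) :
    letI := algL hle
    haveI := towerV A hle
    I.Kr0 (Qv A) T q W u' (w.comap (L (GH (M * q) (up H q)))) := by
  letI := algL hle
  haveI := towerV A hle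
  have m := ((hR M hL).2.2.2.2.2.2.2 H).2.1 hH
  obtain ⟨-, m0⟩ := mid_up hR hq.pos hL hH
  obtain ⟨g1, g2, g3⟩ := good_T X hM m hA hw hN hT
  obtain ⟨b1, b2, b3⟩ := br _ _ T _ g1
  obtain ⟨u', og⟩ := u'
  subst hu
  have ho : q % 2 = 1 := hq.eq_two_or_odd.resolve_left fun e =>
    hqM (e ▸ (by norm_num : 2 ∣ 4).trans hL.four)
  have eT : ((algebraMap (L (GH M H)) (L (GH (M * q) (up H q))) T : L _) : FF) = (2 - X.t) / 4 := hT
  have c4 : (4⁻¹ : Qb) ≠ 0 := by norm_num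
  haveI : CharZero FF := charZero_of_injective_algebraMap (algebraMap Qb FF).injective
  haveI := g1.cff
  have k0 := fun (P : Plk Qb (L (GH (M * q) (up H q)))) =>
    cusp X hE hC hAr hR hF hq ho hL h m0 P (Or.inl rfl) (neg_ne_zero.2 c4)
      (y := algebraMap (L (GH M H)) _ T) (by
        rw [eT, map_neg, map_inv₀, map_ofNat]
        push_cast
        ring) (hW _)
  have k2 := fun (P : Plk Qb (L (GH (M * q) (up H q)))) =>
    cusp X hE hC hAr hR hF hq ho hL h m0 P (Or.inr rfl) c4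
      (y := 1 - algebraMap (L (GH M H)) _ T) (by
        rw [AddSubgroupClass.coe_sub, eT, map_inv₀, map_ofNat]
        push_cast
        ring) (hW _)
  refine ⟨hq, hc, b1, b2, fun v => Subtype.ext (b3 v), ?_, fun _ => rfl,
    (finrank_up X hR hFa hq (Nat.isCoprime_iff_coprime.2
      (hq.coprime_iff_not_dvd.2 hqM).symm) hL hH hle).le, Subtype.ext ?_, ?_, ?_, fun P hP => ?_⟩
  · exact etl_la g2 g3 (hU A O w M _ m hA hw hN)
  · rw [hW, hW, eT, Wq_Wq_la X hq.pos m0.lv h]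
  · change w ((W (algebraMap (L (GH M H)) _ T) : FF) - (T : FF) ^ q) < 1
    rw [hW, eT, ← hT, Wq_low X hq.pos h h1 T.2, hT]
    exact hk
  · rintro x (rfl | rfl) P hP
    · obtain ⟨a, a0, a1⟩ := k0 P hP.ne'
      exact (cusp_le a0 a1).1 hP
    · obtain ⟨a, a0, a1⟩ := k2 P hP.ne'
      exact (cusp_le a0 a1).1 hP
  · obtain ⟨a, a0, a1⟩ := k0 P hP.ne
    exact (cusp_le a0 a1).2 hP

end Vale.Agent.P027M.J
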