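import Vale.Agent.P027M.J.W2
import Vale.Agent.P027M.G.Wgal
import Vale.Agent.P027M.M.Hec2

/-! # P027 route M, block J: the congruences of Kronecker -/

set_option linter.all false

open scoped MatrixGroups

noncomputable section

namespace Vale.Agent.P027M.J

open P025H746 HahnSeries
open Vale.Agent.P022 Vale.Agent.P022.H218.L3 Vale.Agent.P022.H231.L3 Vale.Agent.P022.H236.L3
  Vale.Agent.P022.H542.L3 Vale.Agent.P027M.M Vale.Agent.P027M.G Vale.Agent.P027M.G.Wi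

namespace Kro

variable {A : AV} {O : ValuationSubring ℂ} {w : NV (Qv A) FF} {q : ℕ} {φ : GQ}

theorem vq_lt (hA : A.On O) (h : A.a (q : Qb) < 1) : O.valuation (q : ℂ) < 1 := by
  have := (lt_iff hA (q : Qb)).2 h
  rwa [map_natCast] at this

/-- `f (q z)` has the norm of `f` -/
theorem w_Vq (hP : PRIM) (hE : M.EXP) (X : Mdl) (hI : Inf O w) (h0 : 0 < q) (x : FF) :
    w (Vq X h0 x) = w x := by
  rcases eq_or_ne x 0 with rfl | x0
  · rw [map_zero]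
  obtain ⟨W, hW⟩ := H619.L3.chev O
  obtain ⟨N, hN, s, h⟩ := exists_ex x
  obtain ⟨c, c0, hc⟩ := key0 hP O hN h
  have h1 := hc W hW 1 one_pos
  rw [Wi.sb_one] at h1
  rw [val_eq hI hW hN h (c0 x0) h1,
    val_eq hI hW hN (exM_Vq X h0 hE hN h) (c0 x0) (hc W hW q h0)]

/-- `f ^ φ (q z) ≡ f ^ q` -/
theorem frob (hP : PRIM) (hE : M.EXP) (X : Mdl) (hA : A.On O) (hI : Inf O w) (hq : q.Prime)
    (hO : O.valuation (q : ℂ) < 1) (hφ : ∀ c, A.a c ≤ 1 → A.a (φ c - c ^ q) < 1) (x : FF)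
    (hx : w x ≤ 1) : w (Vq X hq.pos (X.gal φ x) - x ^ q) < 1 := by
  haveI : Fact q.Prime := ⟨hq⟩
  obtain ⟨W, hW⟩ := H619.L3.chev O
  obtain ⟨σ, hσ, hs⟩ := exists_sig φ
  obtain ⟨N, hN, s, s', h, h', k⟩ := X.gal_spec φ x
  obtain rfl := hs _ _ k
  obtain ⟨a, b, a1, b1, b2, e⟩ := rep hP hA hI hx hN h
  have m := sig_mem hA hσ (iso_of hq.ne_zero hφ)
  have p : ∀ z : LS, (∀ k, z.coeff k ∈ AO O) →
      W.valuation (sb q hq.pos (cm σ z) - z ^ q) < 1 := fun z z1 => hW.max _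
    (frob_cong O q hO σ (resO σ m) (fun _ => rfl)
      (fun a => sig_lt hA hσ hφ a a.2.1 a.2.2) z z1)
  refine (hI W hW N _ _ hN (exM_sub (exM_Vq X hq.pos hE hN h') (exM_pow h q))).2.2
    (quot_lt (a := a ^ q) (b := b ^ q) (by rw [← mul_pow, e]) ?_ ?_ ?_ (p a a1) (p b b1))
  · rw [← map_mul, ← map_mul, e]
  · rw [map_pow, prim_val hW (fun k => (b1 k).1) b2, one_pow]
  · rw [map_pow]
    exact pow_le_one' (val_le hW fun k => (a1 k).1) q

/-- `U_q f ≡ f ^ φ` -/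
theorem up_lt (hP : PRIM) (hE : M.EXP) (hC : CF) (X : Mdl) (hG : GALX X) (hA : A.On O)
    (hI : Inf O w) (hq : q.Prime) (h2 : q ≠ 2) (hO : O.valuation (q : ℂ) < 1)
    (hφ : ∀ c, A.a c ≤ 1 → A.a (φ c - c ^ q) < 1) (x : FF)
    (hT : act ModularGroup.T (cv x) = cv x) (hx : w x ≤ 1) :
    w (X.U hq.pos x - X.gal φ x) < 1 := by
  haveI : Fact q.Prime := ⟨hq⟩
  obtain ⟨W, hW⟩ := H619.L3.chev O
  obtain ⟨σ, hσ, hs⟩ := exists_sig φ
  obtain ⟨s, h, al⟩ := hE.2.2.1 1 x one_pos (by rwa [pow_one])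
  obtain ⟨s', k⟩ := (hC φ).2.1 s al
  have h' := exM_period hq.pos one_ne_zero (hG.1 φ x 1 s s' one_pos h k)
  obtain rfl := hs _ _ k
  have hζ := Complex.isPrimitiveRoot_exp q hq.ne_zero
  have hU := Hec2.up hE X hq.pos hζ h 1
  rw [← map_prod] at hU
  obtain ⟨a, b, a1, b1, b2, e⟩ := rep hP hA hI hx one_pos h
  have m := sig_mem hA hσ (iso_of hq.ne_zero hφ)
  have p := fun z z1 => norm_cong O q h2 hO σ (resO σ m) (fun _ => rfl)
    (fun a => sig_lt hA hσ hφ a a.2.1 a.2.2) _ hζ z z1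
  obtain ⟨za, a2, -, a3⟩ := p a a1
  obtain ⟨zb, b3, -, b4⟩ := p b b1
  have lt : ∀ z : LS, (∀ k, O.valuation (z.coeff k) < 1) → W.valuation (sb q hq.pos z) < 1 :=
    fun z hz => hW.max _ fun n => by
      rcases sb_coeff_or q hq.pos z n with h | ⟨k, h⟩
      · rw [h, map_zero]
        exact zero_lt_one
      · rw [h]
        exact hz k
  have mm : ∀ z : LS, (∀ k, z.coeff k ∈ AO O) → ∀ k, (sb q hq.pos (cm σ z)).coeff k ∈ O :=
    fun z hz => sb_mem q hq.pos fun k => m _ (hz k).1 (hz k).2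
  refine (hI W hW (1 * q) _ _ (by simpa using hq.pos) (exM_sub hU h')).2.2
    (quot_lt (a := sb q hq.pos (cm σ a)) (b := sb q hq.pos (cm σ b)) (a' := sb q hq.pos za)
      (b' := sb q hq.pos zb) (by rw [← map_mul, ← map_mul, e]) ?_ ?_ (val_le hW (mm a a1)) ?_ ?_)
  · rw [a2, b3, ← Finset.prod_mul_distrib]
    exact Finset.prod_congr rfl fun j _ => by rw [← map_mul, e]
  · obtain ⟨k, b2⟩ := b2
    exact prim_val hW (mm b b1) (sb_one_coeff _ _ ⟨k, by rw [coeff_cm, b2, map_one]⟩)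
  · rw [← map_sub]
    exact lt _ a3
  · rw [← map_sub]
    exact lt _ b4

end Kro

variable {A : AV} {O : ValuationSubring ℂ} {w : NV (Qv A) FF} {q : ℕ} {φ : GQ}

/-- **first congruence** -/
theorem kro1' (X : Mdl) (hP : PRIM) (hE : M.EXP) (hG : GALX X) (hR : GRP) (hC : CF)
    (hA : A.On O) (hI : Inf O w) (hq : q.Prime) (hO : O.valuation (q : ℂ) < 1)
    (hφ : ∀ c, A.a c ≤ 1 → A.a (φ c - c ^ q) < 1) (x : FF) (hx : w x ≤ 1) :
    w (X.gal φ (Vq X hq.pos x) - x ^ q) < 1 := by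
  rw [gal_Vq X hq.pos hE hG hR hC]
  exact Kro.frob hP hE X hA hI hq hO hφ x hx

/-- the first congruence for a function fixed by Frobenius -/
theorem kro1_fix (X : Mdl) (hP : PRIM) (hE : M.EXP) (hA : A.On O) (hI : Inf O w) (hq : q.Prime)
    (hO : O.valuation (q : ℂ) < 1) (hφ : ∀ c, A.a c ≤ 1 → A.a (φ c - c ^ q) < 1) (x : FF)
    (hx : w x ≤ 1) (hf : X.gal φ x = x) : w (Vq X hq.pos x - x ^ q) < 1 := by
  have := Kro.frob hP hE X hA hI hq hO hφ x hx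
  rwa [hf] at this

/-- **second congruence** -/
theorem kro2' (X : Mdl) (hP : PRIM) (hE : M.EXP) (hG : GALX X) (hC : CF) (hA : A.On O)
    (hI : Inf O w) (hq : q.Prime) (h2 : q ≠ 2) (hO : O.valuation (q : ℂ) < 1)
    (hφ : ∀ c, A.a c ≤ 1 → A.a (φ c - c ^ q) < 1) (x : FF)
    (hT : act ModularGroup.T (cv x) = cv x) (hx : w x = 1) :
    w (X.U hq.pos x / X.gal φ x - 1) < 1 := by
  have h1 : w (X.gal φ x) = 1 := (gal_iso hP X hA hI (iso_of hq.ne_zero hφ) x).trans hx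
  have h0 : X.gal φ x ≠ 0 := fun e => by
    rw [e, map_zero] at h1
    exact zero_ne_one h1
  rw [div_sub_one h0, map_div₀, h1, div_one]
  exact Kro.up_lt hP hE hC X hG hA hI hq h2 hO hφ x hT hx.le

end Vale.Agent.P027M.J
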